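import Crest.Agent.N228.W.Lim
import Crest.Agent.N222.B.Seq

/-!
# Row 228, necks (helper16): pointwise potentials of graphs, the equation free barrier,
admissibility of solutions of `H = Φ (c, u)`
-/

set_option autoImplicit false
set_option linter.unusedSectionVars false
open MeasureTheory Set Filter Topology Function Metric
open scoped ContDiff InnerProductSpace RealInnerProductSpace

noncomputable section

namespace Crest.Agent.N228.Nk

open Crest.Agent.N222

variable {d : ℕ} {ι : Type} [Fintype ι] [DecidableEq ι] {X : Type} [TopologicalSpace X]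
  [MeasurableSpace X] {M : Imm d ι X} {F y w u h : X → ℝ}

/-! ### potentials -/

theorem EF_add {φ : X → ℝ} (hF : M.Sm F) (hφ : M.Sm φ) (p : X) :
    M.pre.EF (fun q => F q + φ q) p =
      M.pre.EF F p - 2 * M.pre.lapF F φ p - M.pre.gam φ φ p := by
  simp only [Imm.EF_apply, Imm.lapF_apply, Imm.lap_add hF hφ, Imm.gam_apply,
    Imm.D_add (hF.diffAt p) (hφ.diffAt p)]
  have : ∑ a, (M.pre.D a F p + M.pre.D a φ p) * (M.pre.D a F p + M.pre.D a φ p) =
      ∑ a, M.pre.D a F p * M.pre.D a F p + 2 * ∑ a, M.pre.D a F p * M.pre.D a φ p +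
        ∑ a, M.pre.D a φ p * M.pre.D a φ p := by
    simp only [Finset.mul_sum, ← Finset.sum_add_distrib]
    exact Finset.sum_congr rfl fun _ _ => by ring
  rw [this]; ring

theorem D_log (hy : M.Sm y) (h0 : ∀ p, 0 < y p) (θ : ℝ) (a : ι) (p : X) :
    M.pre.D a (fun q => θ * Real.log (y q)) p = θ / y p * M.pre.D a y p := by
  rw [Imm.D_const_mul θ ((hy.log fun q => (h0 q).ne').diffAt p),
    Imm.D_comp (hy.diffAt p) (Real.hasDerivAt_log (h0 p).ne')]
  ring

/-- `E (F + θ log y)` -/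
theorem EF_add_log (hF : M.Sm F) (hy : M.Sm y) (h0 : ∀ p, 0 < y p) (θ : ℝ) (p : X) :
    M.pre.EF (fun q => F q + θ * Real.log (y q)) p = M.pre.EF F p -
      2 * θ * (M.pre.lapF F y p / y p) + (2 * θ - θ ^ 2) * (M.pre.gam y y p / y p ^ 2) := by
  have hl : M.Sm fun q => Real.log (y q) := hy.log fun q => (h0 q).ne'
  have h1 := Imm.lap_comp (p := p) hy (φ := Real.log) (Real.contDiffAt_log.2 (h0 p).ne')
  have h3 : ∀ f : X → ℝ, M.pre.gam f (fun q => θ * Real.log (y q)) p =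
      θ / y p * M.pre.gam f y p := fun f => by
    simp only [Imm.gam_apply, D_log hy h0, Finset.mul_sum]
    exact Finset.sum_congr rfl fun _ _ => by ring
  have h4 : M.pre.gam (fun q => θ * Real.log (y q)) y p = θ / y p * M.pre.gam y y p := by
    simp only [Imm.gam_apply, D_log hy h0, Finset.mul_sum]
    exact Finset.sum_congr rfl fun _ _ => by ring
  rw [Real.deriv_log', deriv_inv] at h1
  rw [EF_add hF ((Imm.sm_const θ).mul hl), Imm.lapF_apply, Imm.lapF_apply,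
    Imm.lap_const_mul θ hl, h1, h3, h3, h4]
  have := (h0 p).ne'
  field_simp
  ring

/-- two weights: the cross term is paid by the first one -/
theorem EF_two (hF : M.Sm F) (hy : M.Sm y) (hw : M.Sm w) (h0 : ∀ p, 0 < y p) (h1 : ∀ p, 0 < w p)
    (θ : ℝ) (p : X) : M.pre.EF F p - 2 * (M.pre.lapF F y p / y p) -
      2 * θ * (M.pre.lapF F w p / w p) + (2 * θ - 2 * θ ^ 2) * (M.pre.gam w w p / w p ^ 2) ≤
      M.pre.EF (fun q => F q + Real.log (y q) + θ * Real.log (w q)) p := by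
  have hl : M.Sm fun q => Real.log (y q) := hy.log fun q => (h0 q).ne'
  have e1 := EF_add_log hF hy h0 1 p
  have e2 : ∀ a, M.pre.D a (fun q => F q + Real.log (y q)) p =
      M.pre.D a F p + 1 / y p * M.pre.D a y p := fun a => by
    rw [Imm.D_add (hF.diffAt p) (hl.diffAt p), ← D_log hy h0 1 a p]; simp only [one_mul]
  have e3 : M.pre.lapF (fun q => F q + Real.log (y q)) w p =
      M.pre.lapF F w p + 1 / y p * M.pre.gam y w p := by
    simp only [Imm.lapF_apply, Imm.gam_apply, e2, add_mul, Finset.sum_add_distrib, Finset.mul_sum,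
      mul_assoc, add_assoc]
  have e4 : 0 ≤ ∑ a, (M.pre.D a y p / y p - θ * M.pre.D a w p / w p) ^ 2 := by positivity
  have e5 : ∑ a, (M.pre.D a y p / y p - θ * M.pre.D a w p / w p) ^ 2 =
      M.pre.gam y y p / y p ^ 2 - 2 * θ * (1 / y p * M.pre.gam y w p / w p) +
        θ ^ 2 * (M.pre.gam w w p / w p ^ 2) := by
    simp only [Imm.gam_apply, Finset.mul_sum, Finset.sum_div, ← Finset.sum_sub_distrib,
      ← Finset.sum_add_distrib]
    exact Finset.sum_congr rfl fun _ _ => by ring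
  simp only [one_mul] at e1
  rw [EF_add_log (hF.add hl) hw h1, e1, e3, add_div]
  linarith

/-- the gain of a graph -/
def gain (M : Imm d ι X) (F u : X → ℝ) (p : X) : ℝ :=
  M.hF F u p ^ 2 + M.a2 u p + 2 * M.pre.dir (M.Xf u) (M.hF F u) p

theorem EF_sub_jacobi (hF : M.Sm F) (hu : M.Sm u) (p : X) :
    (M.gS u).EF F p - 2 * ((M.gS u).lapF F (M.vv u) p / M.vv u p) =
      M.pre.EF F p + gain M F u p := by
  rw [Imm.gauss hu hF, neg_eq_iff_eq_neg.1 (Imm.jacobi hu hF p), neg_div,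
    mul_div_cancel_right₀ _ (M.vv_pos u p).ne', gain]
  ring

/-- **GRAPH MOVE**, exact form -/
theorem EF_graph (hF : M.Sm F) (hu : M.Sm u) (p : X) :
    (M.gS u).EF (fun q => F q + Real.log (M.vv u q)) p = M.pre.EF F p + gain M F u p +
      (M.gS u).gam (M.vv u) (M.vv u) p / M.vv u p ^ 2 := by
  have := EF_add_log (M := M.graph u hu) hF hu.vv (M.vv_pos u) 1 p
  simp only [one_mul, Imm.graph_pre hu] at this
  rw [this, ← EF_sub_jacobi hF hu]
  ring

/-- **GRAPH MOVE** with a weight (`θ = 1 / 2` gives `-Δ_F w / w + |∇ log w|² / 2`) -/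
theorem EF_graph_w (hF : M.Sm F) (hu : M.Sm u) (hw : M.Sm w) (h1 : ∀ p, 0 < w p) (θ : ℝ) (p : X) :
    M.pre.EF F p + gain M F u p - 2 * θ * ((M.gS u).lapF F w p / w p) +
      (2 * θ - 2 * θ ^ 2) * ((M.gS u).gam w w p / w p ^ 2) ≤
      (M.gS u).EF (fun q => F q + Real.log (M.vv u q) + θ * Real.log (w q)) p := by
  have := EF_two (M := M.graph u hu) hF hu.vv hw (M.vv_pos u) h1 θ p
  simp only [Imm.graph_pre hu] at this
  rwa [EF_sub_jacobi hF hu] at this

/-! ### the barrier -/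

open Sq Imm in
/-- **equation free barrier** -/
theorem bar_lo [T2Space X] [CompactSpace X] (hi : Injective M.x) (hF : M.Sm F) :
    ∃ r0 C : ℝ, 0 < r0 ∧ 0 < C ∧ ∀ (u : X → ℝ) (r : ℝ) (p : X), M.Sm u → 0 < r → r ≤ r0 →
      ∃ q, ‖M.x q - M.x p‖ < r ∧ u q ≤ u p ∧ -(C / r) ≤ M.hF F u q := by
  obtain ⟨B, hB0, hB⟩ := bound_fam (f := fun k : ι × ι × ι => M.pre.II k.1 k.2.1 k.2.2)
    fun k => (M.sm_II _ _ _).continuous
  obtain ⟨B', hB'0, hB'⟩ := bound_fam (f := fun a : ι => M.pre.D a F) fun a => (hF.D a).continuous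
  obtain ⟨A, hA0, hA⟩ := exists_perp_le hi
  refine ⟨min 1 (4 * A)⁻¹, (Fintype.card ι * (2 * (1 + Fintype.card ι * B)) +
      Fintype.card ι * (Fintype.card ι * (2 * (1 + Fintype.card ι * B))) + 1) +
      Fintype.card ι * B', by positivity, by positivity, ?_⟩
  intro u r p hu hr hr0
  have hr1 : r ≤ 1 := hr0.trans (min_le_left _ _)
  have hrA : A * r ≤ 1 / 4 := by
    have := mul_le_mul_of_nonneg_left (hr0.trans (min_le_right _ _)) hA0.le
    rwa [show A * (4 * A)⁻¹ = 1 / 4 by field_simp] at this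
  obtain ⟨q, -, hq⟩ := isCompact_univ.exists_isMaxOn ⟨p, mem_univ p⟩
    ((sm_sg M (M.x p) r).mul ((sm_const (-r⁻¹)).mul hu).exp).continuous.continuousOn
  have h1 : sg M (M.x p) r p * Real.exp (-r⁻¹ * u p) ≤ sg M (M.x p) r q * Real.exp (-r⁻¹ * u q) :=
    hq (mem_univ p)
  rw [show sg M (M.x p) r p = r ^ 2 by simp [sg]] at h1
  obtain ⟨htr, hup⟩ := real4 (t := ‖M.x q - M.x p‖) hr h1
  have h2 := dv_ge hu hA0.le hB0.le hr hr1 hrA htr (hA q p) (fun a b c q => hB (a, b, c) q)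
    (hq.isLocalMax univ_mem)
  have h3 := (abs_le.1 (abs_dir_le (fun a => hB' a q) u)).1
  refine ⟨q, htr, hup, ?_⟩
  rw [hF_apply, ← neg_div, div_le_iff₀ hr]
  have h4 : (0 : ℝ) ≤ Fintype.card ι * B' := by positivity
  nlinarith [mul_le_mul_of_nonneg_left h3 hr.le, mul_le_mul_of_nonneg_right hr1 h4]

/-- both barriers -/
theorem bar [T2Space X] [CompactSpace X] (hi : Injective M.x) (hF : M.Sm F) :
    ∃ r0 C : ℝ, 0 < r0 ∧ 0 < C ∧ ∀ (u : X → ℝ) (r : ℝ) (p : X), M.Sm u → 0 < r → r ≤ r0 →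
      (∃ q, ‖M.x q - M.x p‖ < r ∧ u q ≤ u p ∧ -(C / r) ≤ M.hF F u q) ∧
      ∃ q, ‖M.x q - M.x p‖ < r ∧ u p ≤ u q ∧ M.hF F u q ≤ C / r := by
  obtain ⟨r0, C, h0, hC, H⟩ := bar_lo hi hF
  refine ⟨r0, C, h0, hC, fun u r p hu hr hr0 => ⟨H u r p hu hr hr0, ?_⟩⟩
  obtain ⟨q, q1, q2, q3⟩ := H _ r p hu.neg hr hr0
  rw [Imm.hF_neg] at q3
  exact ⟨q, q1, neg_le_neg_iff.1 q2, neg_le_neg_iff.1 q3⟩

end Crest.Agent.N228.Nk

end
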