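import Mathlib.Analysis.SpecialFunctions.SmoothTransition
import Mathlib.MeasureTheory.Integral.IntervalIntegral.FundThmCalculus
import Mathlib.Analysis.Calculus.ContDiff.Deriv
import Mathlib.Analysis.Calculus.Deriv.MeanValue

/-!
# Row 228, necks (helper16): the profile `S_L` with a soft zone `|t| ≤ L` and a stiff zone
-/

set_option autoImplicit false
open Set Filter Topology
open scoped ContDiff

noncomputable section

namespace Crest.Agent.N228.Nk

/-- smoothed positive part -/
def ramp (δ x : ℝ) : ℝ := ∫ s in (0 : ℝ)..x, Real.smoothTransition (s / δ)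

theorem hasDerivAt_ramp (δ x : ℝ) : HasDerivAt (ramp δ) (Real.smoothTransition (x / δ)) x :=
  ((Real.smoothTransition.continuous.comp (continuous_id.div_const δ)).integral_hasStrictDerivAt
    0 x).hasDerivAt

theorem deriv_ramp (δ : ℝ) : deriv (ramp δ) = fun x => Real.smoothTransition (x / δ) :=
  funext fun x => (hasDerivAt_ramp δ x).deriv

theorem contDiff_ramp (δ : ℝ) : ContDiff ℝ ∞ (ramp δ) :=
  contDiff_infty_iff_deriv.2 ⟨fun x => (hasDerivAt_ramp δ x).differentiableAt, by
    rw [deriv_ramp]; exact Real.smoothTransition.contDiff.comp (contDiff_id.div_const δ)⟩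

theorem ramp_eq_zero {δ x : ℝ} (hδ : 0 < δ) (hx : x ≤ 0) : ramp δ x = 0 := by
  rw [ramp, intervalIntegral.integral_congr (g := fun _ => (0 : ℝ)), intervalIntegral.integral_zero]
  intro s hs
  rw [uIcc_of_ge hx] at hs
  exact Real.smoothTransition.zero_of_nonpos (div_nonpos_of_nonpos_of_nonneg hs.2 hδ.le)

theorem ramp_mem {δ x : ℝ} (hδ : 0 < δ) : 0 ≤ ramp δ x ∧ ramp δ x ≤ max x 0 := by
  rcases le_total x 0 with hx | hx
  · rw [ramp_eq_zero hδ hx]; exact ⟨le_rfl, le_max_right _ _⟩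
  · refine ⟨intervalIntegral.integral_nonneg hx fun s _ => Real.smoothTransition.nonneg _, ?_⟩
    have := intervalIntegral.integral_mono_on (μ := MeasureTheory.volume) hx
      ((Real.smoothTransition.continuous.comp (continuous_id.div_const δ)).intervalIntegrable 0 x)
      (continuous_const.intervalIntegrable 0 x) fun s _ => Real.smoothTransition.le_one (s / δ)
    simpa [ramp, max_eq_left hx] using this

/-- the profile, as a function of `(L, t)` -/
def prof (A τ δ : ℝ) (z : ℝ × ℝ) : ℝ :=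
  τ * z.2 + (A - τ) * (ramp δ (z.2 - z.1) - ramp δ (-z.2 - z.1))

variable {A τ δ L t : ℝ}

theorem contDiff_prof (A τ δ : ℝ) : ContDiff ℝ ∞ (prof A τ δ) :=
  (contDiff_const.mul contDiff_snd).add (contDiff_const.mul
    (((contDiff_ramp δ).comp (contDiff_snd.sub contDiff_fst)).sub
      ((contDiff_ramp δ).comp (contDiff_snd.neg.sub contDiff_fst))))

theorem contDiff_prof' (A τ δ L : ℝ) : ContDiff ℝ ∞ fun s => prof A τ δ (L, s) :=
  (contDiff_prof A τ δ).comp (contDiff_const.prodMk contDiff_id)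

theorem deriv_prof (A τ δ L t : ℝ) : deriv (fun s => prof A τ δ (L, s)) t = τ + (A - τ) *
    (Real.smoothTransition ((t - L) / δ) + Real.smoothTransition ((-t - L) / δ)) := by
  have h1 := (hasDerivAt_ramp δ (t - L)).comp_sub_const t L
  have h2 := (hasDerivAt_ramp δ (-t - L)).comp t ((hasDerivAt_neg t).sub_const L)
  refine (((hasDerivAt_const_mul τ).add ((h1.sub h2).const_mul (A - τ))).deriv).trans ?_
  ring

theorem prof_neg (A τ δ L t : ℝ) : prof A τ δ (L, -t) = -prof A τ δ (L, t) := by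
  simp only [prof, neg_neg]; ring

theorem prof_zero (A τ δ L : ℝ) : prof A τ δ (L, 0) = 0 := by simp [prof]

theorem le_deriv_prof (h : τ ≤ A) (δ L t : ℝ) : τ ≤ deriv (fun s => prof A τ δ (L, s)) t := by
  rw [deriv_prof]
  exact le_add_of_nonneg_right (mul_nonneg (sub_nonneg.2 h)
    (add_nonneg (Real.smoothTransition.nonneg _) (Real.smoothTransition.nonneg _)))

theorem deriv_prof_le (h0 : 0 ≤ τ) (h : τ ≤ A) (δ L t : ℝ) :
    deriv (fun s => prof A τ δ (L, s)) t ≤ 2 * A := by
  rw [deriv_prof]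
  nlinarith [mul_le_mul_of_nonneg_left (add_le_add (Real.smoothTransition.le_one ((t - L) / δ))
    (Real.smoothTransition.le_one ((-t - L) / δ))) (sub_nonneg.2 h)]

/-- the soft zone -/
theorem prof_soft (hδ : 0 < δ) (ht : |t| ≤ L) : prof A τ δ (L, t) = τ * t := by
  rw [abs_le] at ht
  simp only [prof]
  rw [ramp_eq_zero hδ (by linarith [ht.2]), ramp_eq_zero hδ (by linarith [ht.1])]
  ring

/-- the stiff zone -/
theorem prof_stiff (h : τ ≤ A) (hδ : 0 < δ) (ht : L + δ ≤ |t|) :
    A ≤ deriv (fun s => prof A τ δ (L, s)) t := by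
  have h1 : 1 ≤ Real.smoothTransition ((t - L) / δ) + Real.smoothTransition ((-t - L) / δ) := by
    rcases le_abs.1 ht with h1 | h1
    · rw [Real.smoothTransition.one_of_one_le ((one_le_div hδ).2 (by linarith))]
      exact le_add_of_nonneg_right (Real.smoothTransition.nonneg _)
    · rw [Real.smoothTransition.one_of_one_le (x := (-t - L) / δ) ((one_le_div hδ).2 (by linarith))]
      exact le_add_of_nonneg_left (Real.smoothTransition.nonneg _)
  rw [deriv_prof]
  nlinarith [mul_le_mul_of_nonneg_left h1 (sub_nonneg.2 h)]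

/-- outside the stiff zone the profile is small -/
theorem abs_prof_le (h0 : 0 ≤ τ) (h : τ ≤ A) (hδ : 0 < δ) (ht : |t| ≤ L + δ) :
    |prof A τ δ (L, t)| ≤ τ * (L + δ) + A * δ := by
  have h1 := mul_le_mul_of_nonneg_left ht h0
  rw [abs_le] at ht
  obtain ⟨a1, a2⟩ := ramp_mem (x := t - L) hδ
  obtain ⟨b1, b2⟩ := ramp_mem (x := -t - L) hδ
  have a3 := a2.trans (max_le (by linarith [ht.2]) hδ.le)
  have b3 := b2.trans (max_le (by linarith [ht.1]) hδ.le)
  have h2 : |ramp δ (t - L) - ramp δ (-t - L)| ≤ δ := abs_le.2 ⟨by linarith, by linarith⟩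
  refine (abs_add_le _ _).trans (add_le_add ?_ ?_)
  · rwa [abs_mul, abs_of_nonneg h0]
  · rw [abs_mul, abs_of_nonneg (sub_nonneg.2 h)]
    exact mul_le_mul (by linarith) h2 (abs_nonneg _) (h0.trans h)

/-- stiff or small -/
theorem prof_cases (h0 : 0 ≤ τ) (h : τ ≤ A) (hδ : 0 < δ) (L t : ℝ) :
    A ≤ deriv (fun s => prof A τ δ (L, s)) t ∨ |prof A τ δ (L, t)| ≤ τ * (L + δ) + A * δ :=
  (le_total (L + δ) |t|).imp (prof_stiff h hδ) (abs_prof_le h0 h hδ)

theorem ramp_lin {δ x : ℝ} (hδ : 0 < δ) (hx : δ ≤ x) : ramp δ x = x - δ + ramp δ δ := by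
  have hc : Continuous fun s => Real.smoothTransition (s / δ) :=
    Real.smoothTransition.continuous.comp (continuous_id.div_const δ)
  rw [ramp, ← intervalIntegral.integral_add_adjacent_intervals (hc.intervalIntegrable 0 δ)
    (hc.intervalIntegrable δ x), add_comm, ramp,
    intervalIntegral.integral_congr (a := δ) (g := fun _ => (1 : ℝ)), intervalIntegral.integral_const,
    smul_eq_mul, mul_one]
  intro s hs
  rw [uIcc_of_le hx] at hs
  exact Real.smoothTransition.one_of_one_le ((one_le_div hδ).2 hs.1)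

/-- the profile is linear in the stiff zone -/
theorem prof_lin (A τ : ℝ) (hδ : 0 < δ) (hL : 0 ≤ L) : ∃ c, ∀ t,
    (L + δ ≤ t → prof A τ δ (L, t) = A * t - c) ∧ (t ≤ -(L + δ) → prof A τ δ (L, t) = A * t + c) := by
  have key : ∀ t, L + δ ≤ t → prof A τ δ (L, t) = A * t - (A - τ) * (L + δ - ramp δ δ) := by
    intro t ht
    simp only [prof]
    rw [ramp_lin (x := t - L) hδ (by linarith), ramp_eq_zero (x := -t - L) hδ (by linarith)]
    ring
  refine ⟨_, fun t => ⟨key t, fun ht => ?_⟩⟩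
  have := key (-t) (by linarith)
  rw [prof_neg] at this
  linarith

theorem prof_mono (h0 : 0 ≤ τ) (h : τ ≤ A) (δ L : ℝ) : Monotone fun s => prof A τ δ (L, s) :=
  monotone_of_deriv_nonneg ((contDiff_prof' A τ δ L).differentiable (by simp)) fun t =>
    h0.trans (le_deriv_prof h δ L t)

/-- large values are taken in the stiff zone only -/
theorem prof_out (h0 : 0 ≤ τ) (h : τ ≤ A) (hδ : 0 < δ) (hL : 0 ≤ L) {σ : ℝ}
    (hσ : τ * (L + δ) + A * δ < σ) :
    (σ ≤ prof A τ δ (L, t) → L + δ ≤ t) ∧ (prof A τ δ (L, t) ≤ -σ → t ≤ -(L + δ)) := by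
  have h1 := abs_le.1 (abs_prof_le (t := L + δ) h0 h hδ (abs_of_nonneg (by linarith)).le)
  refine ⟨fun h2 => le_of_not_ge fun h3 => ?_, fun h2 => le_of_not_ge fun h3 => ?_⟩
  · linarith [prof_mono h0 h δ L h3, h1.2]
  · linarith [prof_mono h0 h δ L h3, prof_neg A τ δ L (L + δ), h1.2]

/-- the parameters of the sequence -/
theorem exists_par {σ : ℝ} (hA : 0 < A) (hσ : 0 < σ) : ∃ (δ : ℝ) (τ : ℕ → ℝ), 0 < δ ∧
    (∀ j, 0 < τ j ∧ τ j ≤ A ∧ τ j * (j + δ) + A * δ ≤ σ) ∧
    Tendsto (fun j => τ j * j) atTop (𝓝 0) := by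
  have hδ : 0 < σ / 2 / A := by positivity
  set δ := σ / 2 / A
  set c := min A (σ / 2 / (1 + δ))
  have hc : 0 < c := by positivity
  have h1 : ∀ j : ℕ, (1 : ℝ) ≤ j + 1 := fun j => le_add_of_nonneg_left j.cast_nonneg
  refine ⟨δ, fun j => c / (j + 1) ^ 2, hδ, fun j => ⟨by positivity,
    (div_le_self hc.le (one_le_pow₀ (h1 j))).trans (min_le_left _ _), ?_⟩, ?_⟩
  · have h2 : c * (1 + δ) ≤ σ / 2 := (le_div_iff₀ (by positivity)).1 (min_le_right _ _)
    have h3 : c / (j + 1) ^ 2 * (j + δ) ≤ c * (1 + δ) := by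
      rw [div_mul_eq_mul_div, div_le_iff₀ (by positivity), mul_assoc]
      refine mul_le_mul_of_nonneg_left ?_ hc.le
      nlinarith [h1 j, mul_le_mul_of_nonneg_left (one_le_pow₀ (n := 2) (h1 j)) hδ.le]
    have h4 : A * δ = σ / 2 := mul_div_cancel₀ _ hA.ne'
    linarith
  · refine squeeze_zero (fun j => by positivity) (fun j => ?_)
      (by simpa using tendsto_one_div_add_atTop_nhds_zero_nat.const_mul c)
    rw [div_mul_eq_mul_div, mul_div_assoc, inv_eq_one_div]
    refine mul_le_mul_of_nonneg_left ?_ hc.le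
    rw [div_le_div_iff₀ (by positivity) (by positivity)]
    nlinarith [h1 j]

end Crest.Agent.N228.Nk

end
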