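import Crest.Agent.N222.B.Defs2
import Crest.Agent.N222.F.Lip

/-!
# Row 228, necks (helper16): a generic small shift leaves few common zeros near a thin set
-/

set_option autoImplicit false
set_option linter.unusedSectionVars false
open MeasureTheory Set Filter Topology Function Metric
open scoped ContDiff ENNReal

noncomputable section

namespace Crest.Agent.N228.Nk

open Crest.Agent.N222

variable {d m : ℕ} {ι : Type} [Fintype ι] [DecidableEq ι] {X : Type} [TopologicalSpace X]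
  [MeasurableSpace X] {M : Imm d ι X}

/-- Lipschitz images of thin sets are null -/
theorem null {κ : Type} [Fintype κ] (hκ : m ≤ Fintype.card κ + 3) {B : Set X} (hB : M.Nets m B)
    {A : X → κ → ℝ} {L : ℝ} (hL : 0 < L) (hA : ∀ p q, ‖A p - A q‖ ≤ L * ‖M.x p - M.x q‖) :
    volume (A '' B) = 0 := by
  obtain ⟨C, hC⟩ := hB
  set k := Fintype.card κ with hk
  have h1 : ∀ r : ℝ, 0 < r → r ≤ 1 →
      volume (A '' B) ≤ ENNReal.ofReal (C * (2 * L) ^ k * r) := by
    intro r hr hr1
    obtain ⟨s, -, hs, hc⟩ := hC r hr hr1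
    have h2 : A '' B ⊆ ⋃ q ∈ s, closedBall (A q) (L * r) := by
      rintro _ ⟨p, hp, rfl⟩
      obtain ⟨q, hq, h⟩ := hc p hp
      refine mem_biUnion hq ?_
      rw [mem_closedBall, dist_eq_norm]
      exact (hA p q).trans (mul_le_mul_of_nonneg_left h hL.le)
    refine (measure_mono h2).trans ((measure_biUnion_finset_le _ _).trans ?_)
    simp only [Real.volume_pi_closedBall _ (by positivity : 0 ≤ L * r), Finset.sum_const,
      nsmul_eq_mul, ← hk]
    rw [← ENNReal.ofReal_natCast, ← ENNReal.ofReal_mul (Nat.cast_nonneg _)]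
    refine ENNReal.ofReal_le_ofReal ?_
    have h3 : (s.card : ℝ) * r ^ k ≤ C * r := by
      refine le_of_mul_le_mul_right ?_ (pow_pos hr 3)
      rw [mul_assoc, mul_assoc, ← pow_add, ← pow_succ']
      exact (mul_le_mul_of_nonneg_left (pow_le_pow_of_le_one hr.le hr1 hκ)
        (Nat.cast_nonneg _)).trans hs
    have h4 := mul_le_mul_of_nonneg_left h3 (by positivity : 0 ≤ (2 * L) ^ k)
    calc (s.card : ℝ) * (2 * (L * r)) ^ k = (2 * L) ^ k * (s.card * r ^ k) := by
          rw [← mul_assoc 2, mul_pow]; ring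
      _ ≤ _ := h4
      _ = _ := by ring
  have h5 : Tendsto (fun r : ℝ => ENNReal.ofReal (C * (2 * L) ^ k * r)) (𝓝[>] 0) (𝓝 0) := by
    have : Continuous fun r : ℝ => ENNReal.ofReal (C * (2 * L) ^ k * r) :=
      ENNReal.continuous_ofReal.comp (by fun_prop)
    simpa using (this.tendsto 0).mono_left nhdsWithin_le_nhds
  refine le_antisymm (ge_of_tendsto h5 ?_) zero_le
  filter_upwards [Ioc_mem_nhdsGT zero_lt_one] with r hr using h1 r hr.1 hr.2

/-- **GEN**: after a small shift, at most `m - 4` of the functions are small near `B`. -/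
theorem gen_multi [T2Space X] [CompactSpace X] (hM : Injective M.x) {B : Set X} (hB : IsClosed B)
    (hN : M.Nets m B) {C : Type} [Fintype C] {a : C → X → ℝ} (ha : ∀ c, M.Sm (a c)) {ε : ℝ}
    (hε : 0 < ε) : ∃ ξ : C → ℝ, (∀ c, |ξ c| ≤ ε) ∧ ∃ η t : ℝ, 0 < η ∧ 0 < t ∧
      ∀ p, ∀ q ∈ B, ‖M.x p - M.x q‖ ≤ t → ∀ I : Finset C, (∀ c ∈ I, |a c p + ξ c| ≤ η) →
        I.card + 4 ≤ m := by
  classical
  let Z : Finset C → Set (C → ℝ) := fun I =>
    (fun (y : C → ℝ) (c : I) => y c) ⁻¹' ((fun p (c : I) => a c p) '' B)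
  have hA : ∀ I : Finset C, M.Sm fun p (c : I) => a c p := fun I p =>
    contDiffOn_pi.2 fun c => ha c p
  have hZ : ∀ I : Finset C, m ≤ I.card + 3 → IsOpen (Z I)ᶜ ∧ Dense (Z I)ᶜ := fun I hI => by
    refine ⟨((hB.isCompact.image (hA I).continuous).isClosed.preimage (by fun_prop)).isOpen_compl,
      Metric.dense_iff.2 fun y r hr => ?_⟩
    obtain ⟨L, hL, hl⟩ := (hA I).exists_lip hM
    have h0 := null (by simpa using hI) hN hL hl
    obtain ⟨z, hz, hzK⟩ := not_subset.1 fun h : ball (fun c : I => y c) r ⊆ _ =>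
      (measure_ball_pos volume _ hr).ne' (measure_mono_null h h0)
    refine ⟨fun c => if h : c ∈ I then z ⟨c, h⟩ else y c, (dist_pi_lt_iff hr).2 fun c => ?_,
      fun h => hzK ?_⟩
    · split_ifs with h
      · exact (dist_pi_lt_iff hr).1 hz ⟨c, h⟩
      · simpa using hr
    · simpa [Z] using h
  obtain ⟨y, hy, hyZ⟩ := Metric.dense_iff.1 (dense_biInter_of_isOpen
    (S := {I : Finset C | m ≤ I.card + 3}) (f := fun I => (Z I)ᶜ) (fun I hI => (hZ I hI).1)
    (Set.to_countable _) fun I hI => (hZ I hI).2) 0 ε hε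
  let O : ℝ → Set X := fun η => ⋂ I ∈ {I : Finset C | m ≤ I.card + 3},
    ⋃ c ∈ I, {p | η < |a c p + -y c|}
  have hO : ∀ η, IsOpen (O η) := fun η => (Set.toFinite _).isOpen_biInter fun I _ =>
    isOpen_biUnion fun c _ => isOpen_lt continuous_const ((ha c).continuous.add_const _).abs
  obtain ⟨η, hη, hsub⟩ : ∃ η > 0, B ⊆ O η := by
    refine hB.isCompact.induction_on ⟨1, one_pos, empty_subset _⟩
      (fun s t hst ⟨η, h1, h2⟩ => ⟨η, h1, hst.trans h2⟩) (fun s t ⟨η, h1, h2⟩ ⟨η', h1', h2'⟩ => ?_)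
      fun q hq => ?_
    · have mono : ∀ {η η' : ℝ}, η ≤ η' → O η' ⊆ O η := fun h =>
        iInter₂_mono fun I _ => iUnion₂_mono fun c _ p hp => h.trans_lt hp
      exact ⟨min η η', lt_min h1 h1', union_subset (h2.trans (mono (min_le_left _ _)))
        (h2'.trans (mono (min_le_right _ _)))⟩
    · have h1 : ∀ᶠ η in 𝓝[>] (0 : ℝ), ∀ c, a c q + -y c ≠ 0 → η < |a c q + -y c| :=
        eventually_all.2 fun c => by
          by_cases h : a c q + -y c = 0
          · exact .of_forall fun _ h' => absurd h h'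
          · exact ((eventually_lt_nhds (abs_pos.2 h)).filter_mono nhdsWithin_le_nhds).mono
              fun _ h _ => h
      obtain ⟨η, h2, h3⟩ := (h1.and self_mem_nhdsWithin).exists
      refine ⟨O η, mem_nhdsWithin_of_mem_nhds ((hO η).mem_nhds (mem_iInter₂.2 fun I hI => ?_)),
        η, h3, Subset.rfl⟩
      by_contra hn
      refine mem_iInter₂.1 hyZ I hI ⟨q, hq, funext fun c => ?_⟩
      by_contra h4
      exact hn (mem_iUnion₂.2 ⟨c, c.2, h2 c fun h => h4 (add_neg_eq_zero.1 h)⟩)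
  obtain ⟨t, ht, hsep⟩ := Imm.exists_lebesgue hM hB.isCompact (fun _ : Unit => O η)
    (fun _ => hO η) fun q hq => mem_iUnion.2 ⟨(), hsub hq⟩
  refine ⟨fun c => -y c, fun c => ?_, η, t / 2, hη, half_pos ht, fun p q hq h I hI => ?_⟩
  · simpa using (norm_le_pi_norm y c).trans (mem_ball_zero_iff.1 hy).le
  · by_contra hn
    obtain ⟨-, h1⟩ := hsep q hq
    obtain ⟨c, hc, h2⟩ := mem_iUnion₂.1 (mem_iInter₂.1 (h1 p (by linarith)) I
      (show m ≤ I.card + 3 by omega))
    exact (hI c hc).not_gt h2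

end Crest.Agent.N228.Nk

end
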