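import Crest.Agent.N228.Nk.Loc
import Crest.Agent.N228.J.Fam

/-!
# Row 228, necks (helper16): the neck between two walls
-/

set_option autoImplicit false
set_option linter.unusedSectionVars false
open MeasureTheory Set Filter Topology Function
open scoped ContDiff
open Crest.Agent.N222 Crest.Agent.N222.Imm Crest.Agent.N228.J Crest.Agent.N228.I

noncomputable section

namespace Crest.Agent.N228.Nk

variable {d : ℕ} {ι : Type} [Fintype ι] [DecidableEq ι] {X : Type} [TopologicalSpace X]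
  [MeasurableSpace X] {M : Imm d ι X} {F u q k θ : X → ℝ} {S : ℝ → ℝ} {p : X}

/-- off the wall: stiff or soft -/
theorem Sol.low (h : Sol M F q k S u) {A σ B δ : ℝ} (hA : 0 < A) (hσ : 0 ≤ σ)
    (hq : q =ᶠ[𝓝 p] fun _ => 1) (hS : A ≤ deriv S (u p) ∨ |S (u p)| ≤ σ) (h1 : |k p| ≤ B)
    (h2 : M.pre.gam k k p ≤ δ * A) (h3 : 2 * σ * B ≤ δ) :
    min 0 (k p ^ 2 - 2 * |M.pre.dir (M.Xf u) k p|) - δ ≤ gn M F u p := by
  have e1 := hq.self_of_nhds
  have e2 : M.pre.gam q q p = 0 := gam_ev hq q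
  rcases hS with hS | hS
  · have := h.gn_stiff hA hS (by rw [e2, e1]; positivity)
    rw [e1, one_mul] at this
    linarith [(div_le_iff₀ hA).2 h2, min_le_left 0 (k p ^ 2 - 2 * |M.pre.dir (M.Xf u) k p|)]
  · linarith [h.gn_soft hS e1 e2, min_le_right 0 (k p ^ 2 - 2 * |M.pre.dir (M.Xf u) k p|),
      mul_le_mul_of_nonneg_left h1 (mul_nonneg zero_le_two hσ)]

theorem gam_wq (hθ : M.Sm θ) {η A : ℝ} (h0 : 0 < η) (h1 : η ≤ 1)
    (hA : (32 / 3 * N222.A.cc) ^ 2 * M.pre.gam θ θ p ≤ A) (hq : q =ᶠ[𝓝 p] fun x => wq η (θ x)) :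
    M.pre.gam q q p ≤ A * q p ^ 3 := by
  obtain ⟨e, he, h2⟩ := hasDerivAt_wq h0 h1 (θ p)
  rw [gam_congr hq hq, gam_comp_self hθ he, hq.self_of_nhds]
  refine (mul_le_mul_of_nonneg_right h2 (gam_self_nonneg _ _)).trans ?_
  rw [mul_right_comm]
  exact mul_le_mul_of_nonneg_right hA (pow_nonneg (zero_le_one.trans (one_le_wq h0 h1 _)) 3)

variable [T2Space X] [CompactSpace X]

theorem exists_rad (hi : Injective M.x) {f : X → ℝ} (hf : M.Sm f) {ε : ℝ} (hε : 0 < ε) :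
    ∃ r > 0, ∀ p p', ‖M.x p' - M.x p‖ < r → |f p' - f p| < ε := by
  obtain ⟨L, hL, h⟩ := hf.exists_lip hi
  exact ⟨ε / L, by positivity, fun p p' hp => (h p' p).trans_lt ((lt_div_iff₀' hL).1 hp)⟩

/-- existence, with parameters -/
theorem exists_Sol {Λ : Type} [TopologicalSpace Λ] [FirstCountableTopology Λ] (hF : M.Sm F)
    {q k : Λ → X → ℝ} (hq : JC M.atl univ q) (hk : JC M.atl univ k) (h1 : ∀ l p, 1 ≤ q l p)
    {L : Λ → ℝ} (hL : Continuous L) {A τ : ℝ} (hτ : 0 < τ) (hA : τ ≤ A) (δ : ℝ) :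
    ∃ u : Λ → X → ℝ, JC M.atl univ u ∧
      ∀ l, Sol M F (q l) (k l) (fun t => prof A τ δ (L l, t)) (u l) ∧
        ((∀ p, k l p = 0) → ∀ p, u l p = 0) := by
  obtain ⟨u, h2, h3⟩ := exists_fam_S (b := fun _ a => M.pre.D a F) (contDiff_prof A τ δ) hL
    (fun l => ⟨τ, hτ, le_deriv_prof hA δ _⟩) (Fm.fixed M rfl isOpen_univ)
    (fun a => JC.of_sm rfl isOpen_univ (hF.D a)) hq hk fun l p => one_pos.trans_le (h1 l p)
  refine ⟨u, h2, fun l => ⟨⟨hq.sm rfl l, hk.sm rfl l, contDiff_prof' _ _ _ _, (h3 l).1, h1 l,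
    fun t => hτ.le.trans (le_deriv_prof hA δ _ t), fun p => ?_⟩, fun h p => le_antisymm
      ((h3 l).2.2.1 0 (fun p => by rw [h, prof_zero]) p)
      ((h3 l).2.2.2 0 (fun p => by rw [h, prof_zero]) p)⟩⟩
  rw [← QQ_grad]
  exact (h3 l).2.1 p

variable [SecondCountableTopology X] [BorelSpace X]

/-- **the neck between two walls** -/
theorem two (hi : Injective M.x) (hF : M.Sm F) {θp θm : X → ℝ} (hp : M.Sm θp) (hm : M.Sm θm)
    (hd : ∀ p, θp p < 2 → 2 ≤ θm p) {δ : ℝ} (hδ : 0 < δ) : ∃ K : ℝ, ∀ (h : X → ℝ) (Kp Km : ℝ),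
      M.Sm h → K ≤ Kp → Km ≤ -K → (∀ p, θp p < 2 → h p = Kp) → (∀ p, θm p < 2 → h p = Km) →
      ∃ Λ 𝒰 u τ s, WSeq M F h Λ 𝒰 u τ s ∧ (∀ j, LowN M F h δ (u j)) ∧
        (∀ T : ℝ, ∀ᶠ j in (𝒰 : Filter ℕ), ∀ p, (θp p ≤ 1 → T ≤ u j p) ∧ (θm p ≤ 1 → u j p ≤ -T)) ∧
        ∀ j, ∃ lo hi : ℝ, (∀ p, (θp p < 1 / 16 → u j p = hi) ∧ (θm p < 1 / 16 → u j p = lo)) ∧
          ((∀ p, Km ≤ h p ∧ h p ≤ Kp) → lo ≤ hi ∧ ∀ p, lo ≤ u j p ∧ u j p ≤ hi) := by
  obtain ⟨r0, C, h0, hC, hbar⟩ := sol_bar hi hF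
  obtain ⟨r1, h1, l1⟩ := exists_rad hi hp one_pos
  obtain ⟨r2, h2, l2⟩ := exists_rad hi hm one_pos
  set r := min r0 (min r1 r2)
  have hr : 0 < r := by positivity
  refine ⟨C / r + 1, fun h Kp Km hh hKp hKm ep em => ?_⟩
  obtain ⟨B, hB, bB⟩ := exists_bound ((hh.continuous.prodMk (hh.gam hh).continuous).prodMk
    (((hp.gam hp).continuous.const_mul ((32 / 3 * N222.A.cc) ^ 2)).prodMk
      ((hm.gam hm).continuous.const_mul ((32 / 3 * N222.A.cc) ^ 2))))
  simp only [Prod.norm_mk, max_le_iff, Real.norm_eq_abs] at bB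
  set A := B + B / δ
  have hA : 0 < A := by positivity
  have hBA : B ≤ A := le_add_of_nonneg_right (by positivity)
  have hδA : B ≤ δ * A := by
    rw [mul_add, mul_div_cancel₀ _ hδ.ne']; exact le_add_of_nonneg_left (by positivity)
  obtain ⟨ηp, p0, p1, cp⟩ := cut_seq hF hp hA hδ
  obtain ⟨ηm, m0, m1, cm⟩ := cut_seq hF hm hA hδ
  obtain ⟨δ0, τ, hδ0, hτ, hτL⟩ := exists_par (σ := min (1 / 2) (δ / (2 * B))) hA (by positivity)
  set q : X → ℝ := fun p => wq ηp (θp p) * wq ηm (θm p) with hq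
  have qp : ∀ p, 1 < θm p → q =ᶠ[𝓝 p] fun x => wq ηp (θp x) := fun p h =>
    (ev_gt hm h).mono fun x hx => by simp only [hq, wq_out (Or.inr hx.le), mul_one]
  have qm : ∀ p, 1 < θp p → q =ᶠ[𝓝 p] fun x => wq ηm (θm x) := fun p h =>
    (ev_gt hp h).mono fun x hx => by simp only [hq, wq_out (Or.inr hx.le), one_mul]
  have q1 : ∀ p, 1 < θp p → 1 < θm p → q =ᶠ[𝓝 p] fun _ => 1 := fun p h h' =>
    (qp p h').trans ((ev_gt hp h).mono fun x hx => wq_out (Or.inr hx.le))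
  have dp : ∀ p, θp p ≤ 1 → 1 < θm p := fun p h => by linarith [hd p (by linarith)]
  have dm : ∀ p, θm p ≤ 1 → 1 < θp p := fun p h => lt_of_not_ge fun h' => (dp p h').not_ge h
  choose u hu using fun j : ℕ => exists_Sol (Λ := Unit) (L := fun _ => j) hF
    (JC.of_sm rfl isOpen_univ ((hp.comp (contDiff_wq p0 p1)).mul (hm.comp (contDiff_wq m0 m1))))
    (JC.of_sm rfl isOpen_univ hh)
    (fun _ p => one_le_mul_of_one_le_of_one_le (one_le_wq p0 p1 _) (one_le_wq m0 m1 _))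
    continuous_const (hτ j).1 (hτ j).2.1 δ0
  have hs : ∀ j, Sol M F q h (fun t => prof A (τ j) δ0 (j, t)) (u j ()) := fun j => ((hu j).2 ()).1
  have hσ : ∀ j : ℕ, τ j * (j + δ0) + A * δ0 < 1 := fun j =>
    ((hτ j).2.2.trans (min_le_left _ _)).trans_lt (by norm_num)
  have out := fun (j : ℕ) t => prof_out (t := t) (hτ j).1.le (hτ j).2.1 hδ0 j.cast_nonneg (hσ j)
  have bp : ∀ (j : ℕ) p, θp p ≤ 1 → j + δ0 ≤ u j () p := fun j p h => (out j _).1 (by
    have := (hbar _ _ _ _ (hs j) r Kp p hr (min_le_left _ _)).1 fun p' h' => (ep p' (by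
      linarith [(abs_lt.1 (l1 p p' (h'.trans_le ((min_le_right _ _).trans
        (min_le_left _ _))))).2])).ge
    linarith)
  have bm : ∀ (j : ℕ) p, θm p ≤ 1 → u j () p ≤ -(j + δ0) := fun j p h => (out j _).2 (by
    have := (hbar _ _ _ _ (hs j) r Km p hr (min_le_left _ _)).2 fun p' h' => (em p' (by
      linarith [(abs_lt.1 (l2 p p' (h'.trans_le ((min_le_right _ _).trans
        (min_le_right _ _))))).2])).le
    linarith)
  have low : ∀ j, LowN M F h δ (u j ()) := by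
    intro j p
    have key : ∀ c, (h =ᶠ[𝓝 p] fun _ => c) → j + δ0 ≤ |u j () p| →
        M.pre.gam q q p ≤ A * q p ^ 3 →
        min 0 (h p ^ 2 - 2 * |M.pre.dir (M.Xf (u j ())) h p|) - δ ≤ gn M F (u j ()) p := by
      intro c e1 e2 e3
      have := (hs j).gn_stiff hA (prof_stiff (hτ j).2.1 hδ0 e2) e3
      rw [gam_ev e1, mul_zero, zero_div, neg_zero] at this
      linarith [min_le_left 0 (h p ^ 2 - 2 * |M.pre.dir (M.Xf (u j ())) h p|)]
    rcases le_or_gt (θp p) 1 with a1 | a1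
    · exact key Kp ((ev_lt hp (by linarith)).mono ep) ((bp j p a1).trans (le_abs_self _))
        (gam_wq hp p0 p1 ((le_abs_self _).trans ((bB p).2.1.trans hBA)) (qp p (dp p a1)))
    rcases le_or_gt (θm p) 1 with a2 | a2
    · exact key Km ((ev_lt hm (by linarith)).mono em) ((le_neg.1 (bm j p a2)).trans (neg_le_abs _))
        (gam_wq hm m0 m1 ((le_abs_self _).trans ((bB p).2.2.trans hBA)) (qm p a1))
    refine (hs j).low (σ := δ / (2 * B)) hA (by positivity) (q1 p a1 a2)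
      ((prof_cases (hτ j).1.le (hτ j).2.1 hδ0 _ _).imp_right fun h =>
        h.trans ((hτ j).2.2.trans (min_le_right _ _))) (bB p).1.1
      ((le_abs_self _).trans ((bB p).1.2.trans hδA)) (le_of_eq (by field_simp))
  obtain ⟨Λ, 𝒰, a, h𝒰, ha, hw⟩ := exists_wseq (L := fun j => j) hs
    (fun j => deriv_prof_le (hτ j).1.le (hτ j).2.1 δ0 _) (fun j => (hτ j).1)
    (fun j => j.cast_nonneg) (fun j t ht => prof_soft hδ0 ht) tendsto_natCast_atTop_atTop hτL
    (.of_forall fun j p h => (q1 p (lt_of_not_ge fun h' => by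
      linarith [bp j p h', le_abs_self (u j () p)]) (lt_of_not_ge fun h' => by
      linarith [bm j p h', neg_abs_le (u j () p)])).self_of_nhds)
  have big : ∀ T : ℝ, ∀ᶠ j : ℕ in (𝒰 : Filter ℕ), T ≤ j := fun T =>
    h𝒰 (tendsto_natCast_atTop_atTop.eventually_ge_atTop T)
  choose c hc using fun j : ℕ => prof_lin A (τ j) hδ0 j.cast_nonneg
  obtain ⟨Λ1, w1, s1, g1, e1⟩ := cp h _ _ _ _ _ (fun j => (Kp + c j) / A + -a j) hw
    (fun j p => by rw [gn_add_const, Xf_add_const]; exact low j p)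
    (fun j p h => by
      rw [hF_add_const, (hs j).eq, (qp p (dp p h.le)).self_of_nhds, (hc j _).1 (bp j p h.le),
        ep p (by linarith)]
      field_simp; ring)
    fun T => (big (2 * T)).mono fun j hj p h => le_abs.2 (Or.inl (by linarith [bp j p h, ha j]))
  have e2 : ∀ j p, θm p ≤ 1 → w1 j =ᶠ[𝓝 p] fun p => u j () p + -a j := fun j p h =>
    (e1 j p).2.1 (by linarith [dm p h])
  obtain ⟨Λ2, w2, s2, g2, e3⟩ := cm h _ _ _ _ _ (fun j => (Km - c j) / A + -a j) s1 g1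
    (fun j p h => by
      rw [hF_congr (e2 j p h.le), (e2 j p h.le).self_of_nhds, hF_add_const, (hs j).eq,
        (qm p (dm p h.le)).self_of_nhds, (hc j _).2 (bm j p h.le), em p (by linarith)]
      field_simp; ring)
    fun T => (big T).mono fun j hj p h => le_abs.2 (Or.inr (by
      rw [(e2 j p h).self_of_nhds]; linarith [bm j p h, ha j]))
  refine ⟨Λ2, 𝒰, w2, _, _, s2, g2, fun T => (big (2 * (T + 2))).mono fun j hj p =>
    ⟨fun h => ?_, fun h => ?_⟩, fun j => ⟨(Km - c j) / A + -a j, (Kp + c j) / A + -a j,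
      fun p => ⟨fun h => ?_, (e3 j p).2.2.1⟩, fun hK => ?_⟩⟩
  · linarith [bp j p h, ha j, (abs_le.1 (e1 j p).1).1, (abs_le.1 (e3 j p).1).1]
  · linarith [bm j p h, ha j, (abs_le.1 (e1 j p).1).2, (abs_le.1 (e3 j p).1).2,
      j.cast_nonneg (α := ℝ)]
  · rw [((e3 j p).2.1 (by linarith [dp p (by linarith)])).self_of_nhds, (e1 j p).2.2.1 h]
  · have hpos : 0 < C / r := by positivity
    have a1 := (hc j _).1 (le_refl _)
    have a2 := (abs_le.1 (abs_prof_le (t := j + δ0) (hτ j).1.le (hτ j).2.1 hδ0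
      (abs_of_nonneg (by positivity)).le)).2
    have a3 : j + δ0 ≤ (Kp + c j) / A := (le_div_iff₀' hA).2 (by linarith [hσ j])
    have a4 : (Km - c j) / A ≤ -(j + δ0) := (div_le_iff₀' hA).2 (by linarith [hσ j])
    have a0 : (0 : ℝ) ≤ j + δ0 := by positivity
    have a5 : ∀ p, u j () p + -a j ∈ Icc ((Km - c j) / A + -a j) ((Kp + c j) / A + -a j) := by
      refine fun p => ⟨add_le_add_left ?_ _, add_le_add_left ?_ _⟩
      · refine (le_total (u j () p) (-(j + δ0))).elim (fun h => (div_le_iff₀' hA).2 ?_) a4.trans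
        have := (hs j).neg.S_le (fun p => neg_le_neg (hK p).1) p
        simp only [neg_neg, (hc j _).2 h] at this
        linarith
      · refine (le_total (j + δ0) (u j () p)).elim (fun h => (le_div_iff₀' hA).2 ?_) (·.trans a3)
        have := (hs j).S_le (fun p => (hK p).2) p
        simp only [(hc j _).1 h] at this
        linarith
    have a6 : (Km - c j) / A + -a j ≤ (Kp + c j) / A + -a j := by linarith
    exact ⟨a6, fun p => uIcc_subset_Icc (left_mem_Icc.2 a6)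
      (uIcc_subset_Icc (right_mem_Icc.2 a6) (a5 p) (e1 j p).2.2.2) (e3 j p).2.2.2⟩

end Crest.Agent.N228.Nk

end
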