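import Crest.Agent.N222.B.Riesz
import Crest.Agent.N222.B.Sheet

/-!
# Row 228, necks (helper16): Riesz weights valid on the slice and on all graphs

`Probe M m K p L` : `L f` is `-Δ_F f (p)` for some geometry which sees `m` directions of `M`.
-/

set_option autoImplicit false
set_option linter.unusedSectionVars false
open MeasureTheory Set Filter Topology Function Metric
open scoped ContDiff InnerProductSpace RealInnerProductSpace

noncomputable section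

namespace Crest.Agent.N228.Nk

open Crest.Agent.N222 Crest.Agent.N222.Rz

variable {d m : ℕ} {ι : Type} [Fintype ι] [DecidableEq ι] {X : Type} [TopologicalSpace X]
  [MeasurableSpace X]

/-- an abstract `-Δ_F` at the point `p` -/
structure Probe (M : Imm d ι X) (m : ℕ) (K : ℝ) (p : X) (L : (X → ℝ) → ℝ) : Prop where
  add : ∀ f g, M.Sm f → M.Sm g → L (fun q => f q + g q) = L f + L g
  mul : ∀ (c : ℝ) f, M.Sm f → L (fun q => c * f q) = c * L f
  const : ∀ c : ℝ, L (fun _ => c) = 0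
  ker : ∀ (a : ℝ) (y : E ι) (t : ℝ), 0 ≤ a → 4 * (a + 1) + 1 / 4 ≤ 2 * m → 0 < t →
    a * sg M y t p ^ (-a - 1) * (1 / 4 - K * ‖M.x p - y‖) ≤ L (kr M a y t)

theorem Probe.sum {M : Imm d ι X} {K : ℝ} {p : X} {L : (X → ℝ) → ℝ} (h : Probe M m K p L)
    {κ : Type} (s : Finset κ) {f : κ → X → ℝ} (hf : ∀ k, M.Sm (f k)) (c : ℝ) :
    L (fun q => 1 + c * ∑ k ∈ s, f k q) = c * ∑ k ∈ s, L (f k) := by
  have hs : ∀ s : Finset κ, M.Sm fun q => ∑ k ∈ s, f k q := fun s => Imm.sm_sum s fun k _ => hf k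
  have h1 : L (fun q => ∑ k ∈ s, f k q) = ∑ k ∈ s, L (f k) := by
    classical
    induction s using Finset.induction_on with
    | empty => simpa using h.const 0
    | insert k s hk ih =>
      simp only [Finset.sum_insert hk]
      rw [h.add _ _ (hf k) (hs s), ih]
  rw [h.add _ _ (Imm.sm_const _) ((Imm.sm_const c).mul (hs s)), h.const, h.mul _ _ (hs s), h1,
    zero_add]

section Lin

variable {G : Imm d ι X} {F f g : X → ℝ}

theorem lapF_add (hf : G.Sm f) (hg : G.Sm g) (p : X) :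
    G.pre.lapF F (fun q => f q + g q) p = G.pre.lapF F f p + G.pre.lapF F g p := by
  simp only [Imm.lapF_apply, Imm.lap_add hf hg, Imm.gam_apply,
    Imm.D_add (hf.diffAt p) (hg.diffAt p), mul_add, Finset.sum_add_distrib]
  ring

theorem lapF_const_mul (c : ℝ) (hf : G.Sm f) (p : X) :
    G.pre.lapF F (fun q => c * f q) p = c * G.pre.lapF F f p := by
  simp only [Imm.lapF_apply, Imm.lap_const_mul c hf, Imm.gam_apply,
    Imm.D_const_mul c (hf.diffAt p), mul_add, Finset.mul_sum, mul_left_comm c]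

theorem lapF_const (c : ℝ) (p : X) : G.pre.lapF F (fun _ => c) p = 0 := by
  simp [Imm.lapF_apply, Imm.lap_const, Imm.gam_apply, Imm.D_const]

/-- negative powers of a function that behaves like a squared distance -/
theorem lapF_pow {σ : X → ℝ} (hσ : G.Sm σ) {p : X} {a r n K H : ℝ} (h0 : 0 < σ p) (ha : 0 ≤ a)
    (hn : 4 * (a + 1) + 1 / 4 ≤ 2 * n) (hr0 : 0 ≤ r) (hr : r ^ 2 ≤ σ p)
    (hg : ‖G.grad σ p‖ ≤ 2 * r) (hl : 2 * n - 2 * (r * H) ≤ G.pre.lap σ p)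
    (hK : 2 * (H + ‖G.grad F p‖) ≤ K) :
    a * σ p ^ (-a - 1) * (1 / 4 - K * r) ≤ -G.pre.lapF F (fun q => σ q ^ (-a)) p := by
  have h1 : G.pre.lap (fun q => σ q ^ (-a)) p = _ := Imm.lap_comp hσ
    (φ := fun s => s ^ (-a)) (Real.contDiffAt_rpow_const_of_ne h0.ne')
  rw [Real.deriv_rpow_const', deriv_const_mul_field, Real.deriv_rpow_const,
    Real.rpow_sub_one h0.ne' (-a - 1), Imm.gam_self_eq] at h1
  rw [Imm.lapF_apply, h1, Imm.gam_eq_inner, grad_comp (hσ.diffAt p)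
    (Real.hasDerivAt_rpow_const (p := -a) (Or.inl h0.ne')), inner_smul_right]
  have h3 : ‖G.grad σ p‖ ^ 2 / σ p ≤ 4 := by
    rw [div_le_iff₀ h0]
    nlinarith [norm_nonneg (G.grad σ p)]
  have h5 := (abs_le.1 (abs_real_inner_le_norm (G.grad F p) (G.grad σ p))).1
  have h6 := mul_le_mul_of_nonneg_left hg (norm_nonneg (G.grad F p))
  have h7 := mul_le_mul_of_nonneg_right hK hr0
  have h8 := mul_le_mul_of_nonneg_left h3 (by linarith : 0 ≤ a + 1)
  have h9 : 0 ≤ a * σ p ^ (-a - 1) := mul_nonneg ha (Real.rpow_nonneg h0.le _)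
  have h10 := mul_le_mul_of_nonneg_left (show 1 / 4 - K * r ≤
    G.pre.lap σ p + ⟪G.grad F p, G.grad σ p⟫ - (a + 1) * (‖G.grad σ p‖ ^ 2 / σ p) by nlinarith) h9
  refine h10.trans (le_of_eq ?_)
  ring

end Lin

/-- submanifolds of dimension `m` -/
theorem probe_sub {M : Imm d ι X} {Y : Type} [TopologicalSpace Y] [MeasurableSpace Y]
    {N : Imm m ι Y} {j : Y → X} (hj : Continuous j) (hx : ∀ q, N.x q = M.x (j q)) {F : X → ℝ}
    (hF : M.Sm F) {K : ℝ} (q : Y) (hK : 2 * (‖N.Hv q‖ + ‖M.grad F (j q)‖) ≤ K) :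
    Probe M m K (j q) fun f => -N.pre.lapF (fun p => F (j p)) (fun p => f (j p)) q := by
  have loc := Loc.of_cont hj hx
  refine ⟨fun f g hf hg => ?_, fun c f hf => ?_, fun c => ?_, fun a y t ha hm ht => ?_⟩
  · rw [lapF_add (hf.res loc) (hg.res loc), neg_add]
  · rw [lapF_const_mul c (hf.res loc), mul_neg]
  · rw [lapF_const, neg_zero]
  · have := lapF_kr N (F := fun p => F (j p)) ha hm y ht q (K := K) (by
      rw [(loc q).grad (hF.diffAt _)]
      linarith [N.norm_PL_le q (M.grad F (j q))])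
    have e1 : kr N a y t = fun p => kr M a y t (j p) := funext fun p => by simp only [kr, sg, hx]
    simpa only [e1, sg, hx] using this

/-- graphs over a manifold of dimension `m + 1` -/
theorem probe_graph {M : Imm (m + 1) ι X} {u : X → ℝ} (hu : M.Sm u) (F : X → ℝ) {K : ℝ} (p : X)
    (hK : 2 * (‖(WithLp.toLp 2 fun c => (M.gS u).H c p : E (Option ι))‖ + ‖M.grad F p‖) ≤ K) :
    Probe M m K p fun f => -(M.gS u).lapF F f p := by
  have gl : ∀ f, ‖(M.graph u hu).grad f p‖ ≤ ‖M.grad f p‖ := fun f => by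
    have := M.gS_gam_le u f p
    rw [← Imm.graph_pre hu, Imm.gam_self_eq, Imm.gam_self_eq] at this
    exact le_of_sq_le_sq this (norm_nonneg _)
  rw [← Imm.graph_pre hu] at hK ⊢
  refine ⟨fun f g hf hg => ?_, fun c f hf => ?_, fun c => ?_, fun a y t ha hm ht => ?_⟩
  · rw [lapF_add (G := M.graph u hu) hf hg, neg_add]
  · rw [lapF_const_mul (G := M.graph u hu) c hf, mul_neg]
  · rw [lapF_const, neg_zero]
  refine lapF_pow (G := M.graph u hu) (sm_sg M y t) (sg_pos M y ht p) ha hm (norm_nonneg _)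
    (le_add_of_nonneg_right (sq_nonneg t)) ((gl _).trans (norm_grad_sg M y t p))
    (H := ‖(M.graph u hu).Hv p‖) ?_ 
    (le_trans (mul_le_mul_of_nonneg_left (add_le_add le_rfl (gl F)) zero_le_two) hK)
  have hu' : (M.graph u hu).Sm u := hu
  have e1 : (fun q => ‖(M.graph u hu).x q - up 0 y‖ ^ 2 + t ^ 2) =
      fun q => sg M y t q + u q * u q := funext fun q => by
    rw [Imm.graph_x, Imm.gx, up_sub, norm_sq_up, sg]; ring
  have e2 := lap_sg (M.graph u hu) (up 0 y) t p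
  unfold sg at e2
  rw [e1, Imm.lap_add (M := M.graph u hu) (sm_sg M y t) (hu'.mul hu'), Imm.lap_mul hu' hu',
    Imm.graph_x, Imm.gx, up_sub, ← up_down ((M.graph u hu).Hv p), inner_up] at e2
  have e3 : (M.graph u hu).Hv p none = (M.graph u hu).pre.lap u p := rfl
  have e4 : (M.graph u hu).pre.gam u u p ≤ 1 := by
    rw [Imm.graph_pre, Imm.gS_gam_u]; nlinarith [sq_nonneg (M.vv u p)]
  have e5 := (abs_le.1 ((abs_real_inner_le_norm (M.x p - y) (down ((M.graph u hu).Hv p))).trans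
    (mul_le_mul_of_nonneg_left (norm_down_le _) (norm_nonneg _)))).1
  rw [e3] at e2
  push_cast at e2
  linarith

variable [T2Space X] [CompactSpace X]

set_option maxHeartbeats 400000 in
/-- the weight at one scale -/
theorem riesz1 {M : Imm d ι X} {B : Set X} (hnets : M.Nets m B) {K : ℝ} (hK0 : 0 < K) :
    ∃ C c : ℝ, 0 < c ∧ ∀ δ V0 t0 t2 : ℝ, 0 < δ → 0 < t0 →
    0 < t2 → ∃ (t1 : ℝ) (w χ : X → ℝ), 0 < t1 ∧ t1 ≤ t2 ∧ M.Sm w ∧ M.Sm χ ∧ (∀ p, 1 ≤ w p) ∧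
      Disjoint (tsupport χ) B ∧ (∀ p, 0 ≤ χ p ∧ χ p ≤ 1) ∧ (∀ p, √(M.pre.gam χ χ p) ≤ C / t1) ∧
      (∀ p, χ p ≠ 1 ∨ M.pre.gam χ χ p ≠ 0 → c / t1 ^ (7 / 4 : ℝ) ≤ w p) ∧
      (∀ p, 2 ≤ w p → ∃ q ∈ B, ‖M.x p - M.x q‖ ≤ t0) ∧
      ∀ p L, Probe M m K p L → -δ * w p ≤ L w ∧ (2 ≤ w p → V0 * w p ≤ L w) := by
  rcases le_or_gt m 3 with hm | hm
  · have hB := empty_of_nets hnets hm
    refine ⟨0, 1, one_pos, fun δ V0 t0 t2 hδ _ ht2 => ⟨t2, fun _ => 1, fun _ => 1, ht2, le_rfl,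
      Imm.sm_const _, Imm.sm_const _, fun _ => le_rfl, by simp [hB], fun _ => by simp, fun p => ?_,
      fun p hp => ?_, fun p hp => by norm_num at hp,
      fun q L hL => ⟨?_, fun hp => by norm_num at hp⟩⟩⟩
    · simp [Imm.gam_apply, Imm.D_const]
    · simp [Imm.gam_apply, Imm.D_const] at hp
    · simp [hL.const, hδ.le]
  have hm' : (4 : ℝ) ≤ m := by exact_mod_cast hm
  set a : ℝ := (m - 2 - 1 / 8) / 2 with ha
  have ha0 : 0 < a := by rw [ha]; linarith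
  obtain ⟨L, hL0, hL⟩ := Imm.exists_bound M.continuous_x
  obtain ⟨Cn, hn⟩ := hnets
  obtain ⟨Cc, hCc⟩ := cutoff (M := M)
  set C' := a * ((1 / (8 * K)) ^ 2) ^ (-a - 1) * (K * (L + L)) with hC'
  have hC0 : 0 < C' := by positivity
  have hc0 : (0 : ℝ) < 2 ^ (-a) := by positivity
  refine ⟨Cc * a, 2 ^ (-a) / 4, by positivity, fun δ V0 t0 t2 hδ ht0 ht2 => ?_⟩
  set θ := min ((1 / (8 * K)) ^ 2) (a / (32 * (|V0| + 1))) with hθ
  have hθ0 : 0 < θ := by positivity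
  obtain ⟨t, ht, htt, ht1, hμ⟩ := exists_small (C := Cn) ht2 (show 0 < min (min (min δ 1 / C')
    (1 / (4 * θ ^ (-a)))) (1 / (2 * (t0 ^ 2) ^ (-a))) by positivity)
  obtain ⟨s, hsB, hcard, hnet⟩ := hn t ht ht1
  set κ := t ^ (2 * a - 7 / 4) with hκ
  have hκ0 : 0 < κ := by positivity
  replace hμ : κ * s.card ≤ _ := le_trans (by
    have e1 : κ * t ^ 4 = t ^ (1 / 8 : ℝ) * t ^ m := by
      rw [hκ, ← Real.rpow_natCast, ← Real.rpow_natCast, ← Real.rpow_add ht, ← Real.rpow_add ht, ha]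
      congr 1; push_cast; ring
    refine le_of_mul_le_mul_right ?_ (pow_pos ht m)
    rw [mul_assoc Cn, ← e1]
    nlinarith [mul_le_mul_of_nonneg_left hcard hκ0.le]) hμ
  simp only [le_min_iff] at hμ
  obtain ⟨⟨hμ1, hμ2⟩, hμ3⟩ := hμ
  rw [le_div_iff₀ hC0, le_min_iff] at hμ1
  rw [le_div_iff₀ (by positivity)] at hμ2 hμ3
  set w : X → ℝ := fun p => 1 + κ * ∑ q ∈ s, kr M a (M.x q) t p with hw
  have hk := fun q => sm_kr M a (M.x q) ht
  have hws : M.Sm w := (Imm.sm_const _).add ((Imm.sm_const _).mul (Imm.sm_sum s fun q _ => hk q))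
  have hsum : ∀ p, 0 ≤ κ * ∑ q ∈ s, kr M a (M.x q) t p := fun p =>
    mul_nonneg hκ0.le (Finset.sum_nonneg fun q _ => (kr_pos M a _ ht p).le)
  have hw1 : ∀ p, 1 ≤ w p := fun p => le_add_of_nonneg_right (hsum p)
  have ht7 : 0 < t ^ (7 / 4 : ℝ) := by positivity
  obtain ⟨χ, h1, h2, h3, h4, h5⟩ := hCc w (2 * t ^ (7 / 4 : ℝ) / 2 ^ (-a)) (a / t) hws
    (by positivity) (by positivity) (fun p => zero_le_one.trans (hw1 p)) fun p => by
      rw [hw, grad_sum s hk, norm_smul, Real.norm_of_nonneg hκ0.le]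
      have := (norm_sum_le _ _).trans
        (Finset.sum_le_sum fun q (_ : q ∈ s) => norm_grad_kr M ha0.le (M.x q) ht p)
      rw [← Finset.mul_sum] at this
      have h6 : 0 ≤ a / t := by positivity
      nlinarith [mul_le_mul_of_nonneg_left this hκ0.le]
  refine ⟨t, w, χ, ht, htt, hws, h1, hw1, disjoint_left.2 fun p hp hpB => ?_, h3,
    fun p => by rw [mul_div_assoc]; exact h4 p, fun p hp => ?_, fun p hp => ?_,
    fun q 𝓛 h𝓛 => ?_⟩
  · obtain ⟨q, hq, hpq⟩ := hnet p hpB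
    have h6 : (2 * t ^ 2) ^ (-a) ≤ kr M a (M.x q) t p :=
      Real.rpow_le_rpow_of_nonpos (sg_pos M _ ht p) (by
        unfold sg; linarith [pow_le_pow_left₀ (norm_nonneg _) hpq 2]) (by linarith)
    have h7 := h6.trans (Finset.single_le_sum (f := fun q => kr M a (M.x q) t p)
      (fun q _ => (kr_pos M a _ ht p).le) hq)
    have h8 : t ^ (7 / 4 : ℝ) * (κ * (2 * t ^ 2) ^ (-a)) = 2 ^ (-a) := by
      rw [Real.mul_rpow two_pos.le (by positivity), ← Real.rpow_natCast, ← Real.rpow_mul ht.le, hκ,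
        mul_left_comm (t ^ (2 * a - 7 / 4)), mul_left_comm, ← Real.rpow_add ht, ← Real.rpow_add ht]
      rw [show (7 / 4 + (2 * a - 7 / 4 + (2 : ℕ) * -a) : ℝ) = 0 by push_cast; ring]
      simp
    have h9 := h2 hp
    rw [mem_ofPred_eq, div_mul_eq_mul_div, div_le_one hc0, hw] at h9
    nlinarith [mul_le_mul_of_nonneg_left (mul_le_mul_of_nonneg_left h7 hκ0.le) ht7.le]
  · have h6 := h5 p hp
    rw [div_mul_eq_mul_div, le_div_iff₀ hc0] at h6
    rw [div_le_iff₀ ht7]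
    linarith
  · by_contra hc
    push Not at hc
    have h6 : ∑ q ∈ s, kr M a (M.x q) t p ≤ s.card • (t0 ^ 2) ^ (-a) :=
      Finset.sum_le_card_nsmul _ _ _ fun q hq => Real.rpow_le_rpow_of_nonpos (by positivity) (by
        unfold sg
        linarith [pow_le_pow_left₀ ht0.le (hc q (hsB q hq)).le 2, sq_nonneg t]) (by linarith)
    rw [nsmul_eq_mul] at h6
    simp only [hw] at hp
    nlinarith [mul_le_mul_of_nonneg_left h6 hκ0.le]
  · have hT := fun q' : X => term (r := ‖M.x q - M.x q'‖) (D := L + L) ha0 hK0 (norm_nonneg _)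
      (norm_sub_le_of_le (hL _) (hL _)) (sg_pos M (M.x q') ht q)
      (le_add_of_nonneg_right (sq_nonneg t)) hθ0 (min_le_left _ _)
    have hP := fun q' : X => h𝓛.ker a (M.x q') t ha0.le (by rw [ha]; linarith) ht
    rw [show 𝓛 w = _ from h𝓛.sum s hk κ]
    constructor
    · have h6 := Finset.card_nsmul_le_sum s _ _ fun q' _ => (hT q').1.trans (hP q')
      rw [nsmul_eq_mul] at h6
      nlinarith [mul_le_mul_of_nonneg_left h6 hκ0.le, hw1 q, hμ1.1]
    · intro h2w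
      have h6 := Finset.sum_le_sum fun q' (_ : q' ∈ s) => (hT q').2.trans (hP q')
      rw [Finset.sum_sub_distrib, ← Finset.mul_sum, Finset.sum_sub_distrib, Finset.sum_const,
        Finset.sum_const, nsmul_eq_mul, nsmul_eq_mul] at h6
      have h7 : 4 * (|V0| + 1) ≤ a / (8 * θ) := by
        have := min_le_right ((1 / (8 * K)) ^ 2) (a / (32 * (|V0| + 1)))
        rw [← hθ, le_div_iff₀ (by positivity)] at this
        rw [le_div_iff₀ (by positivity)]
        linarith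
      have h8 : w q = 1 + κ * ∑ q' ∈ s, sg M (M.x q') t q ^ (-a) := rfl
      refine le_trans ?_ (mul_le_mul_of_nonneg_left h6 hκ0.le)
      have h9 : 3 / 8 * w q ≤ κ * (∑ q' ∈ s, sg M (M.x q') t q ^ (-a) - s.card * θ ^ (-a)) := by
        nlinarith
      have h10 := mul_le_mul h7 h9 (by linarith) (by positivity)
      have h11 := mul_le_mul_of_nonneg_right (le_abs_self V0) (by linarith : 0 ≤ w q)
      nlinarith [hμ1.2, mul_nonneg (abs_nonneg V0) (by linarith : 0 ≤ w q)]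

/-- partial sums of weights -/
theorem riesz_ind {M : Imm d ι X} {B : Set X} (hB : IsClosed B) (hM : Injective M.x)
    {K C c δ V0 t0 k0 : ℝ} {g : ℝ → ℝ} (ht0 : 0 < t0) (hg : ∀ k, 0 < g k) (hδ : 0 < δ) (hV : 0 ≤ V0)
    (H : ∀ t0 t2 : ℝ, 0 < t0 → 0 < t2 → ∃ (t1 : ℝ) (w χ : X → ℝ), 0 < t1 ∧ t1 ≤ t2 ∧ M.Sm w ∧
      M.Sm χ ∧ (∀ p, 1 ≤ w p) ∧ Disjoint (tsupport χ) B ∧ (∀ p, 0 ≤ χ p ∧ χ p ≤ 1) ∧
      (∀ p, √(M.pre.gam χ χ p) ≤ C / t1) ∧
      (∀ p, χ p ≠ 1 ∨ M.pre.gam χ χ p ≠ 0 → c / t1 ^ (7 / 4 : ℝ) ≤ w p) ∧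
      (∀ p, 2 ≤ w p → ∃ q ∈ B, ‖M.x p - M.x q‖ ≤ t0) ∧
      ∀ p L, Probe M m K p L → -δ * w p ≤ L w ∧ (2 ≤ w p → V0 * w p ≤ L w)) (D n : ℕ) :
    ∃ (W : X → ℝ) (k t : ℕ → ℝ) (χ : ℕ → X → ℝ) (ρ : ℝ), 0 < ρ ∧ ρ ≤ t0 ∧ M.Sm W ∧
      (∀ p, 1 ≤ W p) ∧ k 0 = k0 ∧ (∀ p, 1 + n < W p → ∃ q ∈ B, ‖M.x p - M.x q‖ ≤ t0) ∧
      (∀ p L, Probe M m K p L → -(2 * n * δ) ≤ L W ∧ V0 * (W p - 1 - n) - 2 * n * δ ≤ L W) ∧
      ∀ i < n, k i ≤ k (i + 1) ∧ 0 < t i ∧ t i ≤ g (k i) ∧ M.Sm (χ i) ∧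
        (∀ p, 0 ≤ χ i p ∧ χ i p ≤ 1) ∧ (∀ p, √(M.pre.gam (χ i) (χ i) p) ≤ C / t i) ∧
        (∀ p, χ i p ≠ 1 ∨ M.pre.gam (χ i) (χ i) p ≠ 0 → c / t i ^ (7 / 4 : ℝ) ≤ W p) ∧
        (∀ p, k (i + 1) ≤ W p + (D - n) → p ∉ tsupport (χ i)) ∧
        ∀ p, ∀ q ∈ B, ‖M.x p - M.x q‖ ≤ ρ → p ∉ tsupport (χ i) := by
  induction n with
  | zero =>
    exact ⟨fun _ => 1, fun _ => k0, fun _ => 1, fun _ _ => 1, t0, ht0, le_rfl, Imm.sm_const _,
      fun _ => le_rfl, rfl, fun p hp => by simp at hp, fun p L hL => by simp [hL.const],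
      fun i hi => absurd hi (Nat.not_lt_zero i)⟩
  | succ n ih =>
    obtain ⟨W, k, t, χ, ρ, hρ, hρt, hW, hW1, hk0, hnear, hL, hsh⟩ := ih
    obtain ⟨t1, w, χ1, a1, a2, a3, a4, a5, a6, a7, a8, a9, a10, a11⟩ := H ρ (g (k n)) hρ (hg _)
    have sW : M.Sm fun p => W p + (w p + -1) := hW.add (a3.add (Imm.sm_const _))
    obtain ⟨S, -, hS⟩ := Imm.exists_bound sW.continuous
    obtain ⟨ρ1, hρ1, hsep⟩ := Imm.exists_lebesgue hM hB.isCompact (fun _ : Unit => (tsupport χ1)ᶜ)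
      (fun _ => (isClosed_tsupport _).isOpen_compl)
      fun q hq => mem_iUnion.2 ⟨(), disjoint_right.1 a6 hq⟩
    refine ⟨fun p => W p + (w p + -1), update k (n + 1) (max (k n) (S + D + 1)), update t n t1,
      update χ n χ1, min ρ (ρ1 / 2), by positivity, (min_le_left _ _).trans hρt, sW,
      fun p => by linarith [hW1 p, a5 p], by simpa using hk0, fun p hp => ?_, fun p L h => ?_,
      fun i hi => ?_⟩
    · rcases le_or_gt 2 (w p) with h | h
      · obtain ⟨q, hq, h⟩ := a10 p h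
        exact ⟨q, hq, h.trans hρt⟩
      · exact hnear p (by push_cast at hp; linarith)
    · rw [h.add _ _ hW (a3.add (Imm.sm_const _)), h.add _ _ a3 (Imm.sm_const _), h.const]
      obtain ⟨b1, b2⟩ := hL p L h
      obtain ⟨b3, b4⟩ := a11 p L h
      push_cast
      rcases le_or_gt 2 (w p) with h2 | h2
      · constructor <;> nlinarith [b4 h2]
      · constructor <;> nlinarith
    rcases (Nat.lt_succ_iff.1 hi).lt_or_eq with hi | rfl
    · obtain ⟨b1, b2, b3, b4, b5, b6, b7, b8, b9⟩ := hsh i hi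
      rw [update_of_ne (by omega), update_of_ne (by omega), update_of_ne hi.ne, update_of_ne hi.ne]
      refine ⟨b1, b2, b3, b4, b5, b6, fun p hp => (b7 p hp).trans (by linarith [a5 p]),
        fun p hp => ?_, fun p q hq h => b9 p q hq (h.trans (min_le_left _ _))⟩
      rcases le_or_gt 2 (w p) with h | h
      · obtain ⟨q, hq, h⟩ := a10 p h
        exact b9 p q hq h
      · exact b8 p (by push_cast at hp; linarith)
    · rw [update_of_ne (by omega), update_self, update_self, update_self]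
      refine ⟨le_max_left _ _, a1, a2, a4, a7, a8, fun p hp => (a9 p hp).trans
        (by linarith [hW1 p]), fun p hp => ?_, fun p q hq h => ?_⟩
      · have h1 := (le_abs_self _).trans (hS p)
        have h2 := (le_max_right _ _).trans hp
        have h3 : (0 : ℝ) ≤ i := Nat.cast_nonneg i
        push_cast at h2
        linarith
      · obtain ⟨-, h1⟩ := hsep q hq
        exact h1 p (by linarith [h.trans (min_le_right _ _)])

/-- **The multiscale weight**: `D` nested shells.  Shell `i` starts at the level `k i` of `W`, its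
cut-off `χ i` has the scale `t i ≤ g (k i)`, and the next shell starts where `χ i = 0`. -/
theorem riesz_multi {M : Imm d ι X} (hM : Injective M.x) {B : Set X} (hB : IsClosed B)
    (hnets : M.Nets m B) {K : ℝ} (hK0 : 0 < K) : ∃ C c : ℝ, 0 < c ∧
    ∀ (D : ℕ) (δ V0 t0 k0 : ℝ) (g : ℝ → ℝ), 0 < δ → 0 < t0 → (∀ k, 0 < g k) →
    ∃ (W : X → ℝ) (k t : ℕ → ℝ) (χ : ℕ → X → ℝ), M.Sm W ∧ (∀ p, 1 ≤ W p) ∧ k 0 = k0 ∧
      (∀ p, 2 * (D + 1) ≤ W p → ∃ q ∈ B, ‖M.x p - M.x q‖ ≤ t0) ∧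
      (∀ p L, Probe M m K p L → -δ * W p ≤ L W ∧ (2 * (D + 1) ≤ W p → V0 * W p ≤ L W)) ∧
      ∀ i < D, k i ≤ k (i + 1) ∧ 0 < t i ∧ t i ≤ g (k i) ∧ M.Sm (χ i) ∧
        Disjoint (tsupport (χ i)) B ∧
        (∀ p, 0 ≤ χ i p ∧ χ i p ≤ 1) ∧ (∀ p, √(M.pre.gam (χ i) (χ i) p) ≤ C / t i) ∧
        (∀ p, χ i p ≠ 1 ∨ M.pre.gam (χ i) (χ i) p ≠ 0 → c / t i ^ (7 / 4 : ℝ) ≤ W p) ∧
        ∀ p, k (i + 1) ≤ W p → p ∉ tsupport (χ i) := by
  obtain ⟨C, c, hc, H⟩ := riesz1 hnets hK0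
  refine ⟨C, c, hc, fun D δ V0 t0 k0 g hδ ht0 hg => ?_⟩
  have hD : (0 : ℝ) ≤ D := Nat.cast_nonneg D
  obtain ⟨W, k, t, χ, ρ, hρ, -, hW, hW1, hk0, hnear, hL, hsh⟩ := riesz_ind (k0 := k0) hB hM ht0 hg
    (δ := δ / (2 * (D + 1))) (V0 := 2 * (|V0| + δ)) (by positivity) (by positivity)
    (fun t0 t2 h0 h2 => H _ _ t0 t2 (by positivity) h0 h2) D D
  have e : 2 * D * (δ / (2 * (D + 1))) ≤ δ := by
    rw [← mul_div_assoc, div_le_iff₀ (by positivity)]; nlinarith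
  refine ⟨W, k, t, χ, hW, hW1, hk0, fun p hp => hnear p (by linarith), fun p L h => ?_,
    fun i hi => ?_⟩
  · obtain ⟨b1, b2⟩ := hL p L h
    have := hW1 p
    refine ⟨by nlinarith, fun hp => ?_⟩
    nlinarith [le_abs_self V0, abs_nonneg V0]
  · obtain ⟨b1, b2, b3, b4, b5, b6, b7, b8, b9⟩ := hsh i hi
    exact ⟨b1, b2, b3, b4, disjoint_right.2 fun q hq => b9 q q hq (by simpa using hρ.le), b5, b6,
      b7, fun p hp => b8 p (by simpa using hp)⟩

/-- one constant for the slice and for all admissible graphs -/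
theorem exists_probe [SecondCountableTopology X] [BorelSpace X] {M : Imm (m + 1) ι X}
    (hM : Injective M.x) {F G : X → ℝ} (hF : M.Sm F) (Λ : ℝ) {S B : Set X} {N : Imm m ι ↥(S \ B)}
    (hS : Slice M F G S B N) : ∃ K : ℝ, 0 < K ∧
      (∀ q : ↥(S \ B), Probe M m K q fun f => -N.pre.lapF (fun p => F p) (fun p => f p) q) ∧
      ∀ u, M.Adm F Λ u → ∀ p, Probe M m K p fun f => -(M.gS u).lapF F f p := by
  obtain ⟨CH, hH⟩ := hS.H
  obtain ⟨CF, hCF0, hCF⟩ := Imm.exists_bound hF.grad.continuous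
  obtain ⟨C, hC0, hC⟩ := sheet (m + 1) ι X M F hM hF Λ
  refine ⟨2 * (|CH| + C + CF), by positivity, fun q => probe_sub continuous_subtype_val hS.x hF q
    (by linarith [hH q, le_abs_self CH, hCF q]), fun u hu p => probe_graph hu.sm F p ?_⟩
  linarith [(hC u hu).H p, abs_nonneg CH, hCF p]

end Crest.Agent.N228.Nk

end
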