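import Crest.Agent.N228.Nk.Sol
import Crest.Agent.N228.Nk.Prof
import Crest.Agent.N228.I.Wall
import Crest.Agent.N228.J.Wall

/-!
# Row 228, necks (helper16): cutting off a solution behind a wall
-/

set_option autoImplicit false
set_option linter.unusedSectionVars false
open MeasureTheory Set Filter Topology Function
open scoped ContDiff
open Crest.Agent.N222 Crest.Agent.N222.Imm Crest.Agent.N228.J Crest.Agent.N228.I

noncomputable section

namespace Crest.Agent.N228.Nk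

variable {d : ℕ} {ι : Type} [Fintype ι] [DecidableEq ι] {X : Type} [TopologicalSpace X]
  [MeasurableSpace X] {M : Imm d ι X} {F u w θ : X → ℝ} {p : X}

theorem hF_ev (h : u =ᶠ[𝓝 p] w) (F : X → ℝ) : M.hF F u =ᶠ[𝓝 p] M.hF F w :=
  h.eventuallyEq_nhds.mono fun _ hq => hF_congr hq F

theorem dir_congr (h : u =ᶠ[𝓝 p] w) {f g : X → ℝ} (e : f =ᶠ[𝓝 p] g) :
    M.pre.dir (M.Xf u) f p = M.pre.dir (M.Xf w) g p := by
  simp only [dir_apply, Xf_congr h, D_congr e]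

theorem gD_congr (h : u =ᶠ[𝓝 p] w) {f g : X → ℝ} (e : f =ᶠ[𝓝 p] g) (c : Option ι) :
    (M.gS u).D c f p = (M.gS w).D c g p := by
  rw [gS_D_apply, gS_D_apply, dir_congr h e]
  cases c with
  | none => rw [nu_none, nu_none, vv_congr h]; rfl
  | some a => rw [nu_some, nu_some, Xf_congr h]; simp only [Option.elim, D_congr e]

theorem gn_congr (h : u =ᶠ[𝓝 p] w) : gn M F u p = gn M F w p := by
  rw [gn, gn, hF_congr h, dir_congr h (hF_ev h F)]

theorem gn_add_const (M : Imm d ι X) (F u : X → ℝ) (t : ℝ) :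
    gn M F (fun p => u p + t) = gn M F u := by
  funext p
  rw [gn, gn, hF_add_const, Xf_add_const]

theorem hF_const (M : Imm d ι X) (F : X → ℝ) (s : ℝ) : M.hF F (fun _ => s) = fun _ => 0 :=
  funext fun p => by rw [← QQ_grad, QQ_const]

/-- a cut-off of a small solution is small in `C³` -/
theorem cut_jet {U K : Set X} (hU : IsOpen U) (hF : M.Sm F) {A : ℝ} (hA : 0 < A) {χ : X → ℝ}
    (hχ : M.Sm χ) (hK : IsCompact K) (hKU : K ⊆ U) {ε : ℝ} (hε : 0 < ε) :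
    ∃ δ > 0, ∀ u, M.Sm u → (∀ p ∈ U, M.hF F u p = A * u p ∧ |u p| < δ) → ∀ p ∈ K,
      |M.hF F (fun q => χ q * u q) p| ≤ ε ∧
      |M.pre.dir (M.Xf fun q => χ q * u q) (M.hF F fun q => χ q * u q) p| ≤ ε ∧
      ∀ c, |(M.gS fun q => χ q * u q).D c (M.hF F fun q => χ q * u q) p| ≤ ε := by
  let T := {u : X → ℝ // M.Sm u ∧ ∀ p ∈ U, M.hF F u p = A * u p}
  let t0 : T := ⟨fun _ => 0, sm_const 0, fun p _ => by rw [hF_const, mul_zero]⟩
  have hΦ : J.Good (fun z : ℝ × ℝ × ℝ => A * z.2.1) univ univ :=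
    ⟨isOpen_univ, ordConnected_univ, by fun_prop, fun _ _ t _ _ _ => by
      rwa [(hasDerivAt_const_mul A (x := t)).deriv]⟩
  have h1 : JC M.atl U fun t : Un U (Subtype.val : T → _) => (t : T).1 :=
    loc (c := fun _ => 0) rfl hU (fun a => hF.D a) hΦ
      (((M.smOn_univ rfl).2 (sm_const 0)).mono (subset_univ _))
      (fun t => ((M.smOn_univ rfl).2 t.2.1).mono (subset_univ _))
      (fun _ _ _ => ⟨mem_univ _, mem_univ _⟩) fun t p hp => by rw [QQ_grad]; exact t.2.2 p hp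
  have h2 := (JC.of_sm rfl hU hχ).mul h1
  have hM : Fm M.atl U fun _ : Un U (Subtype.val : T → _) => M := Fm.fixed M rfl hU
  have h3 := hM.pj.hF (JC.of_sm rfl hU hF) h2 (hM.vv h2)
  have h4 := h3.prodMk ((hM.pj.dir (hM.pj.Xf h2 (hM.vv h2)) h3).prodMk
    (JC.pi hU fun c => (hM.gS h2).D c h3))
  obtain ⟨δ, hδ, h⟩ := Un.eventually_iff.1 (h4.eventually_norm hK hKU t0 hε)
  refine ⟨δ, hδ, fun u hu h5 p hp => ?_⟩
  have h6 := h ⟨u, hu, fun p hp => (h5 p hp).1⟩ (fun p hp => by simpa [t0] using (h5 p hp).2) p hp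
  have e : (fun q => χ q * t0.1 q) = fun _ => 0 := funext fun q => mul_zero _
  change ‖(M.hF F _ p, M.pre.dir (M.Xf _) (M.hF F _) p, fun c => (M.gS _).D c (M.hF F _) p) -
    (M.hF F (fun q => χ q * t0.1 q) p, M.pre.dir (M.Xf fun q => χ q * t0.1 q)
      (M.hF F fun q => χ q * t0.1 q) p, fun c => (M.gS fun q => χ q * t0.1 q).D c
        (M.hF F fun q => χ q * t0.1 q) p)‖ < ε at h6
  have e1 : ∀ v, M.pre.dir (M.Xf v) (fun _ => 0) p = 0 := fun v => by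
    simp only [dir_apply, D_const, mul_zero, Finset.sum_const_zero]
  have e2 : ∀ v c, (M.gS v).D c (fun _ => 0) p = 0 := fun v c => by
    rw [gS_D_apply, e1]; cases c <;> simp [D_const]
  simp only [e, hF_const, e1, e2, Prod.mk_sub_mk, sub_zero, Prod.norm_mk, max_lt_iff] at h6
  exact ⟨h6.1.le, h6.2.1.le, fun c =>
    (congrArg abs (sub_zero _).symm).trans_le ((pi_norm_lt_iff hε).1 h6.2.2 c).le⟩

variable [T2Space X] [SecondCountableTopology X] [CompactSpace X]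

/-- a high wall pins the solution -/
theorem pin (hF : M.Sm F) (hθ : M.Sm θ) {A δ : ℝ} (hA : 0 < A) (hδ : 0 < δ) :
    ∃ η, 0 < η ∧ η ≤ 1 ∧ ∀ u, M.Sm u →
      (∀ p, θ p < 1 → M.hF F u p = wq η (θ p) * (A * u p)) → ∀ p, θ p ≤ 19 / 32 → |u p| < δ := by
  have hc := hθ.continuous
  obtain ⟨C, -, H⟩ := wall_le (K := {p | θ p = 19 / 32}) (N := {p | 9 / 16 < θ p ∧ θ p < 5 / 8})
    (fun a => hF.D a) (isClosed_eq hc continuous_const).isCompact
    ((isOpen_lt continuous_const hc).inter (isOpen_lt hc continuous_const))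
    (fun p hp => by rw [mem_setOf_eq] at hp ⊢; rw [hp]; norm_num) (half_pos hδ)
  obtain ⟨η, h0, h1, h2⟩ := exists_wq (C := C + 1) (mul_pos hA (half_pos hδ))
  have key : ∀ u, M.Sm u → (∀ p, θ p < 1 → M.hF F u p = wq η (θ p) * (A * u p)) →
      ∀ p, θ p ≤ 19 / 32 → u p < δ := by
    intro u hu he p hp
    obtain ⟨q, hq, hm⟩ := (isClosed_le hc continuous_const).isCompact.exists_isMaxOn ⟨p, hp⟩
      hu.continuous.continuousOn
    refine (hm hp).trans_lt ?_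
    rcases (show θ q ≤ _ from hq).eq_or_lt with h3 | h3
    · refine (H u (δ / 2) hu (fun x hx h4 => ?_) q h3).trans_eq (add_halves δ)
      rw [QQ_grad, he x (by linarith [hx.2]), wq_top hx.1.le hx.2.le]
      nlinarith [mul_le_mul_of_nonneg_left (mul_le_mul_of_nonneg_left h4 hA.le) (sq_nonneg η⁻¹)]
    · have h4 := (QQ_nonpos (fun a => hF.D a) hu
        (hm.isLocalMax ((ev_lt hθ h3).mono fun _ hx => hx.le))).2
      rw [QQ_grad, he q (by linarith)] at h4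
      have h5 := nonpos_of_mul_nonpos_right h4 (one_pos.trans_le (one_le_wq h0 h1 _))
      exact (nonpos_of_mul_nonpos_right h5 hA).trans_lt hδ
  refine ⟨η, h0, h1, fun u hu he p hp => abs_lt.2 ⟨neg_lt.1 ?_, key u hu he p hp⟩⟩
  exact key _ hu.neg (fun q hq => by rw [hF_neg]; simp only [he q hq]; ring) p hp

/-- **the cut-off behind the wall** -/
theorem cut_side (hF : M.Sm F) (hθ : M.Sm θ) {A ε : ℝ} (hA : 0 < A) (hε : 0 < ε) :
    ∃ η, 0 < η ∧ η ≤ 1 ∧ ∀ (u : X → ℝ) (b Λ : ℝ), M.Adm F Λ u →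
      (∀ p, θ p < 1 → M.hF F u p = wq η (θ p) * (A * (u p - b))) →
      ∃ w, M.Adm F (max Λ ε) w ∧ ∀ p, |w p - u p| ≤ ε ∧ (θ p ≤ 1 / 7 → -(2 * ε) ≤ gn M F w p) ∧
        (1 / 8 < θ p → w =ᶠ[𝓝 p] u) ∧ (θ p < 1 / 16 → w p = b) ∧ w p ∈ uIcc b (u p) := by
  have hc := hθ.continuous
  have hχ := hθ.comp (contDiff_ct 16 (-1))
  obtain ⟨δ, hδ, H⟩ := cut_jet (U := {p | θ p < 3 / 16}) (K := {p | θ p ≤ 1 / 7})
    (isOpen_lt hc continuous_const) hF hA hχ (isClosed_le hc continuous_const).isCompact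
    (fun p (hp : θ p ≤ _) => hp.trans_lt (by norm_num : (1 / 7 : ℝ) < 3 / 16)) hε
  obtain ⟨η, h0, h1, h2⟩ := pin hF hθ hA (lt_min hδ hε)
  refine ⟨η, h0, h1, fun u b Λ ha he => ?_⟩
  have hv : M.Sm fun p => u p + -b := ha.sm.add (sm_const _)
  have h3 := h2 _ hv fun p hp => by rw [hF_add_const, he p hp, sub_eq_add_neg]
  have h4 := H _ hv fun p hp => ⟨by
    rw [hF_add_const, he p (lt_trans hp (by norm_num)), wq_out (Or.inl (le_of_lt hp)), one_mul,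
      sub_eq_add_neg], (h3 p (le_trans (le_of_lt hp) (by norm_num))).trans_le (min_le_left _ _)⟩
  have h5 : ∀ p, 1 / 8 < θ p → (fun q => ct 16 (-1) (θ q) * (u q + -b) + b) =ᶠ[𝓝 p] u :=
    fun p hp => (ev_gt hθ hp).mono fun q hq => by
      simp only [ct_one (a := 16) (c := -1) (t := θ q) (by linarith)]; ring
  have h6 : ∀ p, θ p ≤ 1 / 7 ∨ 1 / 8 < θ p := fun p =>
    (le_or_gt (θ p) (1 / 7)).imp_right fun h => lt_trans (by norm_num) h
  refine ⟨fun q => ct 16 (-1) (θ q) * (u q + -b) + b, ⟨(hχ.mul hv).add (sm_const _), fun p => ?_,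
    fun c p => ?_, fun p => ?_⟩, fun p => ⟨?_, fun hp => ?_, h5 p, fun hp => ?_, ?_⟩⟩
  · rcases h6 p with hp | hp
    · rw [hF_add_const]; exact le_max_of_le_right (h4 p hp).1
    · rw [hF_congr (h5 p hp)]; exact le_max_of_le_left (ha.h p)
  · rcases h6 p with hp | hp
    · rw [hF_add_const, gS_D_add_const]; exact le_max_of_le_right ((h4 p hp).2.2 c)
    · rw [gD_congr (h5 p hp) (hF_ev (h5 p hp) F)]; exact le_max_of_le_left (ha.dh c p)
  · rcases h6 p with hp | hp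
    · rw [hF_add_const, Xf_add_const]
      exact (neg_le_neg (le_max_right _ _)).trans (abs_le.1 (h4 p hp).2.1).1
    · rw [dir_congr (h5 p hp) (hF_ev (h5 p hp) F)]
      exact (neg_le_neg (le_max_left _ _)).trans (ha.xh p)
  · rcases h6 p with hp | hp
    · have h7 := (h3 p (hp.trans (by norm_num))).le.trans (min_le_right _ _)
      rw [show ct 16 (-1) (θ p) * (u p + -b) + b - u p = (ct 16 (-1) (θ p) - 1) * (u p + -b) by ring,
        abs_mul]
      refine (mul_le_of_le_one_left (abs_nonneg _) (abs_le.2 ⟨?_, ?_⟩)).trans h7 <;>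
        linarith [ct_nonneg 16 (-1) (θ p), ct_le_one 16 (-1) (θ p)]
    · rw [(h5 p hp).self_of_nhds, sub_self, abs_zero]; exact hε.le
  · rw [gn_add_const, gn]
    linarith [(abs_le.1 (h4 p hp).2.1).1, sq_nonneg
      (M.hF F (fun q => ct 16 (-1) (θ q) * (u q + -b)) p)]
  · simp only [ct_zero (a := 16) (c := -1) (t := θ p) (by linarith), zero_mul, zero_add]
  · have := mem_cut ordConnected_uIcc left_mem_uIcc (right_mem_uIcc (a := b) (b := u p))
      (ct_nonneg 16 (-1) (θ p)) (ct_le_one 16 (-1) (θ p))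
    rwa [add_comm, sub_eq_add_neg] at this

/-- a weak sequence may be modified where it is large -/
theorem _root_.Crest.Agent.N228.WSeq.modify [BorelSpace X] {k : X → ℝ} {Λ Λ' : ℝ}
    {𝒰 : Ultrafilter ℕ} {u w : ℕ → X → ℝ} {τ s : ℕ → ℝ} (h : WSeq M F k Λ 𝒰 u τ s) {Z : Set X}
    (ha : ∀ j, M.Adm F Λ' (w j)) (h1 : ∀ j p, |w j p - u j p| ≤ 1)
    (h2 : ∀ j p, p ∉ Z → w j =ᶠ[𝓝 p] u j)
    (h3 : ∀ T : ℝ, ∀ᶠ j in (𝒰 : Filter ℕ), ∀ p ∈ Z, T ≤ |u j p|) : WSeq M F k Λ' 𝒰 w τ s := by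
  have h4 : ∀ j p T, |w j p| ≤ T → |u j p| ≤ T + 1 := fun j p T hp => by
    linarith [abs_sub_abs_le_abs_sub (u j p) (w j p), abs_sub_comm (u j p) (w j p), h1 j p]
  refine ⟨h.smh, ha, h.pos, h.tau, h.sh, fun T => ?_, fun T => ?_⟩
  · filter_upwards [h.eq T, h3 (T + 2)] with j e1 e2 p hp
    have h5 := h2 j p fun hz => by linarith [e2 p hz, h4 j p T hp]
    rw [hF_congr h5, h5.self_of_nhds]
    exact e1 p (h5.self_of_nhds ▸ hp)
  · exact squeeze_zero (fun _ => measureReal_nonneg)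
      (fun j => measureReal_mono fun p hp => h4 j p T hp) (h.thin (T + 1))

/-- the gain of the graph of `u` -/
def LowN (M : Imm d ι X) (F h : X → ℝ) (δ : ℝ) (u : X → ℝ) : Prop :=
  ∀ p, min 0 (h p ^ 2 - 2 * |M.pre.dir (M.Xf u) h p|) - δ ≤ gn M F u p

/-- **the cut-off of a weak sequence** -/
theorem cut_seq [BorelSpace X] (hF : M.Sm F) (hθ : M.Sm θ) {A δ : ℝ} (hA : 0 < A) (hδ : 0 < δ) :
    ∃ η, 0 < η ∧ η ≤ 1 ∧ ∀ (h : X → ℝ) (Λ : ℝ) (𝒰 : Ultrafilter ℕ) (u : ℕ → X → ℝ) (τ s b : ℕ → ℝ),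
      WSeq M F h Λ 𝒰 u τ s → (∀ j, LowN M F h δ (u j)) →
      (∀ j p, θ p < 1 → M.hF F (u j) p = wq η (θ p) * (A * (u j p - b j))) →
      (∀ T : ℝ, ∀ᶠ j in (𝒰 : Filter ℕ), ∀ p, θ p ≤ 1 → T ≤ |u j p|) →
      ∃ Λ' w, WSeq M F h Λ' 𝒰 w τ s ∧ (∀ j, LowN M F h δ (w j)) ∧ ∀ j p, |w j p - u j p| ≤ 1 ∧
        (1 / 8 < θ p → w j =ᶠ[𝓝 p] u j) ∧ (θ p < 1 / 16 → w j p = b j) ∧
        w j p ∈ uIcc (b j) (u j p) := by
  obtain ⟨η, h0, h1, H⟩ := cut_side hF hθ hA (lt_min one_pos (half_pos hδ))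
  refine ⟨η, h0, h1, fun h Λ 𝒰 u τ s b hs hl he hb => ?_⟩
  choose w ha hw using fun j => H (u j) (b j) Λ (hs.adm j) (he j)
  have h2 := fun j p => (hw j p).1.trans (min_le_left _ _)
  refine ⟨_, w, hs.modify (Z := {p | θ p ≤ 1}) ha h2
    (fun j p hp => (hw j p).2.2.1 (lt_trans (by norm_num) (not_le.1 hp))) hb, fun j p => ?_,
    fun j p => ⟨h2 j p, (hw j p).2.2⟩⟩
  rcases le_or_gt (θ p) (1 / 7) with hp | hp
  · linarith [(hw j p).2.1 hp, min_le_right 1 (δ / 2),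
      min_le_left 0 (h p ^ 2 - 2 * |M.pre.dir (M.Xf (w j)) h p|)]
  · have h3 := (hw j p).2.2.1 (lt_trans (by norm_num) hp)
    rw [gn_congr h3, dir_congr h3 EventuallyEq.rfl]
    exact hl j p

end Crest.Agent.N228.Nk

end
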